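import Crest.Agent.X212.Hat23.Lev
import Crest.Agent.X212.Bor5.Val
import Crest.Agent.X212.Lens8.Sharp
import Mathlib
import Crest.Agent.X212.Lens8.D
import Crest.Agent.X212.Bor5.Props
import Crest.Agent.X212.Bor5.Main

-- ▼ part X212/Hat23/Main
section

/-! The leaves RHO, FOLD, UP, DOWN, RED of layer S. -/

set_option autoImplicit false

noncomputable section

namespace Hat23

open Crest.Agent.X212 Bor5 Module Function Matrix Ob Filter
open Fam (Ch RBij)

theorem fr_split {V V' : Type*} [AddCommGroup V] [Module K V] [AddCommGroup V'] [Module K V']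
    (f : V →ₗ[K] V') (S : Submodule K V) [FiniteDimensional K S] :
    finrank K S = finrank K (S.map f) + finrank K (S ⊓ LinearMap.ker f : Submodule K V) := by
  have h1 := LinearMap.finrank_range_add_finrank_ker (f.domRestrict S)
  rw [LinearMap.range_domRestrict, LinearMap.ker_domRestrict,
    ← Submodule.finrank_map_subtype_eq S, Submodule.map_comap_subtype] at h1
  exact h1.symm

/-- RHO -/
theorem rho : RhoStmt := by
  intro L M U f g h t DL DM DU hf hg cL cM cU a b c ra rb rc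
  have pL := L.pos
  have pU := U.pos
  have hP := t.hP
  obtain ⟨k1, h1⟩ := exists_dec DL
  obtain ⟨k2, h2⟩ := exists_dec DM
  obtain ⟨k3, h3⟩ := exists_dec DU
  obtain ⟨k4, h4⟩ := exists_ne cM
  obtain ⟨k5, h5⟩ := exists_ne cU
  obtain ⟨k, ⟨⟨ea, eb⟩, ec⟩, hk⟩ :=
    (((ra.and rb).and rc).and (eventually_ge_atTop (k1 + k2 + k3 + k4 + k5))).exists
  have := fd_low DL k
  have := fd_low DM k
  have := fd_low DU k
  have d1 : ∀ y, f.tot y ∈ M.low DM k → y ∈ L.low DL k := fun y hy =>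
    desc1 t.nf hf (by omega) cL (h1 k (by omega)) (fun j hj => h4 j (by omega)) trivial hy
  have e1 : L.low DL k ⊓ LinearMap.ker f.tot = LinearMap.range h.tot := by
    rw [← t.ex3.linearMap_ker_eq]
    exact inf_eq_right.2 fun y hy => d1 y (by rw [LinearMap.mem_ker.1 hy]; exact zero_mem _)
  have e2 : M.low DM k ⊓ LinearMap.ker g.tot = (L.low DL k).map f.tot := by
    rw [t.ex1.linearMap_ker_eq]
    refine le_antisymm ?_ ?_
    · rintro _ ⟨hy, y, rfl⟩
      exact ⟨y, d1 y hy, rfl⟩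
    · rintro _ ⟨y, hy, rfl⟩
      exact ⟨tot_low t.nf hf hy, y, rfl⟩
  have e3 : U.low DU k ⊓ LinearMap.ker h.tot = (M.low DM k).map g.tot := by
    rw [t.ex2.linearMap_ker_eq]
    refine le_antisymm ?_ ?_
    · rintro _ ⟨hy, y, rfl⟩
      obtain ⟨x, -, hx⟩ := desc2 t hf hg cM cU le_top (h2 k (by omega))
        (fun j hj => h5 j (by omega)) trivial hy
      exact ⟨_, hx, by rw [map_sub, t.ex1.apply_apply_eq_zero, sub_zero]⟩
    · rintro _ ⟨y, hy, rfl⟩
      exact ⟨tot_low t.ng hg hy, y, rfl⟩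
  have e4 : (U.low DU k).map h.tot = LinearMap.range h.tot := by
    refine le_antisymm LinearMap.map_le_range ?_
    rintro _ ⟨z, rfl⟩
    obtain ⟨y, -, hy⟩ := desc3 t.ng hg (by omega) cU le_top (h3 k (by omega)) (z := z) trivial
    exact ⟨_, hy, by rw [map_sub, t.ex2.apply_apply_eq_zero, sub_zero]⟩
  have r1 := fr_split f.tot (L.low DL k)
  have r2 := fr_split g.tot (M.low DM k)
  have r3 := fr_split h.tot (U.low DU k)
  rw [e1] at r1
  rw [e2] at r2
  rw [e3, e4] at r3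
  refine ⟨e4 ▸ inferInstance, ?_⟩
  rw [hP] at eb
  push_cast at eb
  have r1' := congrArg (Nat.cast : ℕ → ℤ) r1
  have r2' := congrArg (Nat.cast : ℕ → ℤ) r2
  have r3' := congrArg (Nat.cast : ℕ → ℤ) r3
  push_cast at r1' r2' r3'
  linarith

theorem F_inj {A B : Ob} {f : Fam A B} (h : f.Neg) (hs : f.Sharp A.d B.d) {κ : ℤ} (hκ : Ch A B κ)
    (hl : |κ| < A.P + B.P) {z : A.H} (hz : z ∈ A.T) (hc : ∀ c x, c ≠ f.s κ → A.π c x z = 0)
    (h0 : f.F κ z = 0) : z = 0 := by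
  refine eq_zero_of_π fun c x => ?_
  by_cases e : c = f.s κ
  · subst e
    rcases mem_span_iff.1 (mem_T.1 hz (f.s κ) x) with b | b
    · exact b
    by_contra hn
    obtain ⟨n, rfl⟩ := (A.e_ne _ x).1 (b ▸ hn)
    have := f.π_F κ (A.d (f.s κ) + 2 * n) z
    rw [h0, map_zero, b, h.F_e hκ, add_right_comm, ← hs.eq hκ hl] at this
    exact e_add_ne _ n this.symm
  · exact hc c x e

/-- FOLD -/
theorem fold : FoldStmt := by
  intro L M U f g h t pure hf κ
  refine LinearMap.ext fun y => ?_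
  by_contra hy
  obtain ⟨k, hk, hm⟩ := Set.exists_max_image _ (fun κ : ℤ => |κ|) (h.fin y) ⟨κ, hy⟩
  have pL : (0 : ℤ) < L.P := by exact_mod_cast L.pos
  have pU : (0 : ℤ) < U.P := by exact_mod_cast U.pos
  have hP : (M.P : ℤ) = L.P + U.P := by exact_mod_cast t.hP
  have ch : Ch U L k := by_contra fun e => hk (by simp only; rw [t.ph.par k e]; rfl)
  obtain ⟨c, c1, c2, c3⟩ : ∃ c : ℤ, Odd c ∧ |k| < |k - 2 * c * U.P| ∧ |-k - c * L.P| ≤ L.P := by
    have a1 := Int.emod_add_mul_ediv |k| (2 * L.P)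
    have a2 := Int.emod_nonneg |k| (show 2 * (L.P : ℤ) ≠ 0 by omega)
    have a3 := Int.emod_lt_of_pos |k| (show 0 < 2 * (L.P : ℤ) by omega)
    have a4 : 0 ≤ |k| / (2 * L.P) := Int.ediv_nonneg (abs_nonneg k) (by omega)
    generalize |k| / (2 * L.P) = n at a1 a4
    generalize |k| % (2 * L.P) = r at a1 a2 a3
    have a5 : 0 < (2 * n + 1) * (U.P : ℤ) := by positivity
    rcases le_total 0 k with b | b
    · rw [abs_of_nonneg b] at a1 ⊢
      exact ⟨-(2 * n + 1), (odd_two_mul_add_one n).neg, lt_abs.2 (Or.inl (by linarith)),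
        abs_le.2 ⟨by linarith, by linarith⟩⟩
    · rw [abs_of_nonpos b] at a1 ⊢
      exact ⟨2 * n + 1, odd_two_mul_add_one n, lt_abs.2 (Or.inr (by linarith)),
        abs_le.2 ⟨by linarith, by linarith⟩⟩
  have z : h.F (k - 2 * c * U.P) y = 0 := by_contra fun e => (hm _ e).not_gt c2
  have e1 := LinearMap.congr_fun (t.fold (c * U.P - k) c c1) y
  rw [LinearMap.comp_apply, LinearMap.comp_apply, sub_sub_cancel,
    show -c * U.P - (c * U.P - k) = k - 2 * c * U.P by ring, z, map_zero,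
    show c * U.P - k - c * M.P = -k - c * L.P by rw [hP]; ring] at e1
  have e2 := t.cmp (-k) c (Fam.ch_neg.2 ch) c1
  rw [neg_neg] at e2
  have ch' : Ch L M (-k - c * L.P) := by
    have := Int.not_even_iff_odd.2 c1
    simp only [Ch, hP, parity_simps, even_neg] at ch ⊢
    tauto
  exact hk (F_inj t.nf hf ch' (by omega) (pure.symm ▸ Submodule.mem_top)
    (fun s x hs => h.π_F_ne k (e2 ▸ hs) x y) e1)

/-- DOWN -/
theorem down : DownStmt := by
  intro L M U f g h t h0 DL hf hd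
  funext s
  refine (hd s).antisymm (not_lt.1 fun hl => e_d_ne s ?_)
  have h1 : f.tot (L.e s (L.d s)) = 0 := by
    refine (Submodule.mem_bot K).1 (f.tot_mem fun κ => (Submodule.mem_bot K).2 ?_)
    by_cases b : Ch L M κ
    · by_cases e : s = f.s κ
      · subst e
        rw [t.nf.F_e b, e_eq_zero (by linarith [hf.le b])]
      · exact f.F_e_ne κ e _
    · rw [t.nf.par κ b]; rfl
  obtain ⟨u, hu⟩ := (t.ex3 _).1 h1
  rw [← hu, h0]; rfl

/-- UP -/
theorem up : UpStmt := by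
  intro L M U f g h t pure DU hf hg hd
  have pL := L.pos
  have pU := U.pos
  have hP := t.hP
  have cU := t.ng.cg_t hg cg_d
  funext s
  refine (hd s).antisymm' (not_lt.1 fun hl => ?_)
  obtain ⟨φ, hφ⟩ := mat_surj t.ng.toLat (by omega) (Pi.single s 1)
  rw [mulVecLin_apply] at hφ
  have h1 := tot_tv (k := 0) t.ng hg φ
  rw [hφ, tv_single, e_eq_zero (by simpa using hl), smul_zero, sub_zero] at h1
  obtain ⟨x, hx⟩ := (t.ex1 _).1 (T_low hd (g.tot_mem_T (tv_mem_T φ)) h1)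
  have hx' : x ∈ L.T := pure.symm ▸ Submodule.mem_top
  obtain ⟨χ, hχ⟩ := (dec_T 0).lead cg_d le_rfl hx' (desc1 t.nf hf (by omega) cg_d (dec_T _)
    (fun j _ => ne_d j) hx' (hx ▸ tv_mem_low φ))
  have h2 := tot_tv (k := 0) t.nf hf χ
  rw [← sub_eq_zero.1 (T_low (fun _ => le_rfl) (sub_mem hx' (tv_mem_T χ)) hχ), hx, ← map_sub] at h2
  have h3 := mat_mat t hf hg cU χ
  rw [← sub_eq_zero.1 ((ne_d 0).eq h2), hφ] at h3
  simpa using congrFun h3 s

section tow
variable {L M U : Ob} {f : Fam L M} {g : Fam M U} {h : Fam U L}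

theorem tow1 (t : Tri f g h) (hf : f.Sharp L.d M.d) {y : L.H} (hy : y ∈ L.T) (h0 : f.tot y = 0) :
    y = 0 :=
  T_low (fun _ => le_rfl) hy (desc1 t.nf hf (by have := t.hP; have := U.pos; omega) cg_d (dec_T _)
    (fun j _ => ne_d j) hy (h0 ▸ zero_mem _))

theorem tow2 (t : Tri f g h) (hf : f.Sharp L.d M.d) (hg : g.Sharp M.d U.d) {y : M.H} (hy : y ∈ M.T)
    (h0 : g.tot y = 0) : ∃ x ∈ L.T, f.tot x = y := by
  obtain ⟨x, hx, e⟩ := desc2 (k := 0) t hf hg cg_d cg_d le_rfl (dec_T _) (fun j _ => ne_d j) hy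
    (h0 ▸ zero_mem _)
  exact ⟨x, hx, (sub_eq_zero.1 (T_low (fun _ => le_rfl) (sub_mem hy (f.tot_mem_T hx)) e)).symm⟩

theorem tow3 (t : Tri f g h) (hg : g.Sharp M.d U.d) {z : U.H} (hz : z ∈ U.T) :
    ∃ y ∈ M.T, g.tot y = z := by
  obtain ⟨x, hx, e⟩ := desc3 (k := 0) t.ng hg (by have := t.hP; have := L.pos; omega) cg_d le_rfl
    (dec_T _) hz
  exact ⟨x, hx, (sub_eq_zero.1 (T_low (fun _ => le_rfl) (sub_mem hz (g.tot_mem_T hx)) e)).symm⟩

end tow

theorem rbij_of {A B : Ob} (f : Fam A B) (h1 : ∀ y, f.tot y ∈ B.T → y ∈ A.T)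
    (h2 : ∀ z, ∃ y, z - f.tot y ∈ B.T) : RBij f.tot := by
  refine f.rbij_iff.2 ⟨(injective_iff_map_eq_zero _).2 fun x hx => ?_, fun x => ?_⟩
  · obtain ⟨y, rfl⟩ := A.T.mkQ_surjective x
    exact (Submodule.Quotient.mk_eq_zero _).2 (h1 y ((Submodule.Quotient.mk_eq_zero _).1 hx))
  · obtain ⟨z, rfl⟩ := B.T.mkQ_surjective x
    obtain ⟨y, hy⟩ := h2 z
    exact ⟨A.T.mkQ y, ((Submodule.Quotient.eq _).2 hy).symm⟩

/-- RED -/
theorem red : RedStmt := by
  intro L M U f g h t hf hg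
  refine ⟨fun pure => rbij_of f (fun y hy => ?_) fun z => ?_,
    fun pure => rbij_of g (fun y hy => ?_) fun z => ?_,
    fun pure => rbij_of h (fun y hy => ?_) fun z => ?_⟩
  · obtain ⟨x, hx, e⟩ := tow2 t hf hg hy (t.ex1.apply_apply_eq_zero y)
    obtain ⟨u, hu⟩ := (t.ex3 (y - x)).1 (by rw [map_sub, e, sub_self])
    rw [t.ph.tot_T (pure.symm ▸ Submodule.mem_top)] at hu
    exact sub_eq_zero.1 hu.symm ▸ hx
  · obtain ⟨y, hy, e⟩ := tow3 t hg (z := g.tot z) (pure.symm ▸ Submodule.mem_top)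
    obtain ⟨x, hx⟩ := (t.ex1 (z - y)).1 (by rw [map_sub, e, sub_self])
    exact ⟨x, by rwa [hx, sub_sub_cancel]⟩
  · obtain ⟨x, hx, e⟩ := tow3 t hg hy
    obtain ⟨u, hu⟩ := (t.ex1 (y - x)).1 (by rw [map_sub, e, sub_self])
    have := add_mem (f.tot_mem_T (y := u) (pure.symm ▸ Submodule.mem_top)) hx
    rwa [hu, sub_add_cancel] at this
  · obtain ⟨y, hy⟩ := (t.ex2 z).1
      (tow1 t hf (pure.symm ▸ Submodule.mem_top) (t.ex3.apply_apply_eq_zero z))
    exact ⟨y, by rw [hy, sub_self]; exact zero_mem _⟩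
  · obtain ⟨x, rfl⟩ := (t.ex2 y).1 (tow1 t hf hy (t.ex3.apply_apply_eq_zero y))
    exact g.tot_mem_T (pure.symm ▸ Submodule.mem_top)
  · obtain ⟨x, hx, e⟩ := tow2 t hf hg (y := f.tot z) (pure.symm ▸ Submodule.mem_top)
      (t.ex1.apply_apply_eq_zero z)
    obtain ⟨u, hu⟩ := (t.ex3 (z - x)).1 (by rw [map_sub, e, sub_self])
    exact ⟨u, by rwa [hu, sub_sub_cancel]⟩

end Hat23
end
end

-- ▼ part X212/Bor5/Zero
section

/-!
# Row 212, layer S (helper5): the correction terms of the third vertices are forced, `Sys0 → Sys`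
-/

set_option autoImplicit false

open Module Function Filter

noncomputable section

namespace Crest.Agent.X212.Bor5

open Fam (Ch RBij)
open Lens8 (sharp_ed sharp_of Dc_cast D_nat D_pos nat_cop gap_phi gap_shear even_cop even_shear sumStmt)

theorem Ed.sl {p q p' q' : ℤ} (h : Ed p q p' q') : Sl p q ∧ Sl p' q' :=
  ⟨⟨left_ne_zero_of_mul h.1.ne', h.2.1, -q', p', by linear_combination h.2.2.2⟩,
    right_ne_zero_of_mul h.1.ne', h.2.2.1, q, -p, by linear_combination h.2.2.2⟩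

theorem Sl.upper {p q : ℤ} (h : Sl p q) (hp : 0 < p) (hq : 0 < q) : ∃ p' q', q' < q ∧ 0 < p' ∧ Ed p q p' q' := by
  lift p to ℕ using hp.le
  lift q to ℕ using hq.le
  obtain ⟨p', q', a, b, e⟩ := Lens8.exists_upper (p := p) (q := q) (by omega) (by omega) (nat_cop h.2.2)
  refine ⟨p', q', by omega, by omega, by positivity, by omega, by omega, ?_⟩
  zify at e
  linear_combination e

theorem Sl.add {p q : ℤ} (h : Sl p q) (i : ℤ) (h0 : p + q * i ≠ 0) : Sl (p + q * i) q :=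
  ⟨h0, h.2.1, h.2.2.add_mul_left_left i⟩

theorem Tri.rho0 {L M U : Ob} {f : Fam L M} {g : Fam M U} {h : Fam U L} (t : Tri f g h) (h0 : ∀ κ, h.F κ = 0)
    {DL : ZMod L.P → ℚ} {DM : ZMod M.P → ℚ} {DU : ZMod U.P → ℚ} (s1 : f.Sharp DL DM) (s2 : g.Sharp DM DU)
    (c1 : L.Cg DL) (c2 : M.Cg DM) (c3 : U.Cg DU) {a b c : ℤ} (r1 : L.Rho DL a) (r2 : M.Rho DM b)
    (r3 : U.Rho DU c) : a + c = b := by
  have := (Hat23.rho L M U f g h t DL DM DU s1 s2 c1 c2 c3 a b c r1 r2 r3).2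
  rw [h.tot_eq_zero h0, LinearMap.range_zero, finrank_bot] at this
  simpa using this

namespace Far

variable (S : Far)

theorem d_inf {p : ℤ} (h : p = 1 ∨ p = -1) : (S.Y p 0).d = S.D p 0 := funext fun s => by
  rw [(S.inf p h).2]
  rcases h with rfl | rfl
  · exact (sumStmt.2.2.1 _ _).symm
  · exact ((Lens8.D_neg one_pos _ _).trans (by rw [sumStmt.2.2.1, neg_zero])).symm

theorem bnd_pos {p q : ℤ} (h : Sl p q) (hp : 0 < p) :
    (S.Y p q).Cg (S.D p q) ∧ ∀ s, (S.Y p q).d s ≤ S.D p q s := by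
  obtain ⟨n, rfl⟩ := Int.eq_ofNat_of_zero_le h.2.1
  induction n using Nat.strong_induction_on generalizing p with
  | _ n ih =>
    rcases n.eq_zero_or_pos with rfl | hn
    · have := Int.isUnit_iff.1 (isCoprime_zero_right.1 h.2.2)
      rw [Nat.cast_zero, ← S.d_inf this]
      exact ⟨Ob.cg_d _, fun _ => le_rfl⟩
    · obtain ⟨p', q', a, b, e⟩ := h.upper hp (by omega)
      obtain ⟨m, rfl⟩ := Int.eq_ofNat_of_zero_le e.2.2.1
      obtain ⟨k1, k2⟩ := ih m (by omega) b e.sl.2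
      exact ⟨(S.neg _ _ _ _ e).cg_s (sharp_ed S e) k1, (S.neg _ _ _ _ e).ub (sharp_ed S e) k2⟩

theorem rho_inf : (S.Y 1 0).Rho (S.D 1 0) 0 := S.d_inf (.inl rfl) ▸ (S.inf 1 (.inl rfl)).1.rho

theorem rho_med {p q p' q' a b : ℤ} (e : Ed p q p' q') (hp : 0 < p) (ha : a = p + p') (hb : b = q + q')
    (z : ∀ κ, (S.F p' q' p q).F κ = 0) {r r' : ℤ} (h1 : (S.Y p q).Rho (S.D p q) r)
    (h2 : (S.Y p' q').Rho (S.D p' q') r') : (S.Y a b).Rho (S.D a b) (r + r') := by
  have hp' : 0 < p' := pos_of_mul_pos_left' e.1 hp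
  have e1 : Ed p q a b := ⟨by rw [ha]; positivity, e.2.1, by linarith [e.2.1, e.2.2.1], by
    rw [ha, hb]; linear_combination e.2.2.2⟩
  have e2 : Ed a b p' q' := ⟨by rw [ha]; positivity, e1.2.2.1, e.2.2.1, by
    rw [ha, hb]; linear_combination e.2.2.2⟩
  have c := (S.bnd_pos e1.sl.2 (by omega)).1
  obtain ⟨x, hx⟩ := c.exists_rho
  rwa [(S.tri _ _ _ _ _ _ e ha hb).rho0 z (sharp_ed S e1) (sharp_ed S e2) (S.bnd_pos e.sl.1 hp).1 c
    (S.bnd_pos e.sl.2 hp').1 h1 hx h2]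
where pos_of_mul_pos_left' {a b : ℤ} (h : 0 < a * b) (ha : 0 < a) : 0 < b := (mul_pos_iff_of_pos_left ha).1 h

theorem ed_inf {n : ℤ} (h : 0 < n) : Ed n 1 1 0 := ⟨by omega, by omega, le_rfl, by ring⟩

theorem zero_inf {n : ℤ} (h : 0 < n) (κ : ℤ) : (S.F 1 0 n 1).F κ = 0 :=
  (S.tri _ _ _ _ _ _ (ed_inf h) rfl rfl).ph.F_pure (S.inf 1 (.inl rfl)).1 κ

theorem rho_int {R : ℤ} (h : (S.Y 1 1).Rho (S.D 1 1) R) {n : ℤ} (hn : 1 ≤ n) : (S.Y n 1).Rho (S.D n 1) R := by
  induction n, hn using Int.leInduction with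
  | base => exact h
  | succ n hn ih => simpa using S.rho_med (b := 1) (ed_inf hn) hn rfl rfl (S.zero_inf hn) ih S.rho_inf

theorem edge_ge {R : ℤ} (h : (S.Y 1 1).Rho (S.D 1 1) R) (n : ℕ) : ∀ p q p' q' : ℤ, q + q' ≤ n → Ed p q p' q' →
    0 < p → q ≤ p → (∀ κ, (S.F p' q' p q).F κ = 0) ∧ (S.Y p q).Rho (S.D p q) (q * R) ∧
      (S.Y p' q').Rho (S.D p' q') (q' * R) := by
  induction n with
  | zero =>
    rintro p q p' q' h1 ⟨-, h2, h3, h4⟩
    obtain rfl : q = 0 := by omega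
    obtain rfl : q' = 0 := by omega
    simp at h4
  | succ n ih =>
    intro p q p' q' h1 e hp hq
    obtain ⟨e1, e2, e3, e4⟩ := id e
    have hp' : 0 < p' := (mul_pos_iff_of_pos_left hp).1 e1
    have hq0 : 0 < q := by
      by_contra hn
      obtain rfl : q = 0 := by omega
      nlinarith
    rcases e3.eq_or_lt with rfl | e3'
    · obtain ⟨rfl, rfl⟩ : q = 1 ∧ p' = 1 := by
        have := Int.eq_one_or_neg_one_of_mul_eq_one' (u := q) (v := p') (by linarith)
        omega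
      exact ⟨S.zero_inf hp, by simpa using S.rho_int h hp, by simpa using S.rho_inf⟩
    rcases le_or_gt q q' with c | c
    · obtain ⟨u, rfl⟩ : ∃ u, p' = p + u := ⟨p' - p, by ring⟩
      obtain ⟨v, rfl⟩ : ∃ v, q' = q + v := ⟨q' - q, by ring⟩
      have hu : 0 < u := by nlinarith
      have e' : Ed p q u v := ⟨by positivity, e2, by omega, by linear_combination e4⟩
      obtain ⟨z, r1, r2⟩ := ih p q u v (by push_cast at h1; omega) e' hp hq
      exact ⟨fun κ => by rw [← S.bu2 _ _ _ _ _ _ e' rfl rfl, z, LinearMap.zero_comp], r1,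
        add_mul q v R ▸ S.rho_med e' hp rfl rfl z r1 r2⟩
    · obtain ⟨u, rfl⟩ : ∃ u, p = u + p' := ⟨p - p', by ring⟩
      obtain ⟨v, rfl⟩ : ∃ v, q = v + q' := ⟨q - q', by ring⟩
      have hu : v ≤ u := by nlinarith
      have hu0 : 0 < u := by omega
      have e' : Ed u v p' q' := ⟨by positivity, by omega, e3, by linear_combination e4⟩
      obtain ⟨z, r1, r2⟩ := ih u v p' q' (by push_cast at h1; omega) e' hu0 hu
      exact ⟨fun κ => by rw [← S.bu3 _ _ _ _ _ _ e' rfl rfl, z, LinearMap.comp_zero],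
        add_mul v q' R ▸ S.rho_med e' hu0 rfl rfl z r1 r2, r2⟩

/-- `ρ(p / q) = q R` for `p / q ≥ 1` -/
theorem rho_ge : ∃ R : ℤ, ∀ p q, Sl p q → 0 < q → q ≤ p → (S.Y p q).Rho (S.D p q) (q * R) := by
  obtain ⟨R, hR⟩ := (S.bnd_pos (p := 1) (q := 1) ⟨one_ne_zero, zero_le_one, isCoprime_one_left⟩ one_pos).1.exists_rho
  refine ⟨R, fun p q h hq hp => ?_⟩
  obtain ⟨p', q', -, -, e⟩ := h.upper (by omega) hq
  exact (S.edge_ge hR (q + q').toNat p q p' q' (by omega) e (by omega) hp).2.1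

end Far

/-- few classes have a defect -/
theorem Ob.card_bad {X : Ob} {D : ZMod X.P → ℚ} (c : X.Cg D) (hle : ∀ s, X.d s ≤ D s) {r : ℤ} (h : X.Rho D r) :
    ((Finset.univ.filter fun s => X.d s ≠ D s).card : ℤ) ≤ r := by
  have h1 := (c.rho_iff r).1 h
  have h2 : ((Finset.univ.filter fun s => X.d s ≠ D s).card : ℚ) ≤ ∑ s, (D s - X.d s) / 2 := by
    rw [Finset.card_filter]
    push_cast
    refine Finset.sum_le_sum fun s _ => ?_
    obtain ⟨k, hk⟩ := c s
    have h3 := hle s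
    split_ifs with e
    · have : 0 < k := by
        have := lt_of_le_of_ne h3 e
        exact_mod_cast (by linarith : (0 : ℚ) < k)
      have : (1 : ℚ) ≤ k := by exact_mod_cast this
      linarith
    · linarith
  have h4 : (0 : ℚ) ≤ finrank K X.Red := Nat.cast_nonneg _
  exact_mod_cast (by linarith : ((Finset.univ.filter fun s => X.d s ≠ D s).card : ℚ) ≤ r)

namespace Sys0

variable (S : Sys0) {p q p' r : ℤ}

/-- the model on the third vertex -/
def DL (q r : ℤ) (s : ZMod (S.Λ q r).P) : ℚ := -Dc (S.Λ q r) q r s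

theorem emod_add (e : p' = p + q) (hr : r = p % q) : r = p' % q := by rw [e, hr]; simp

theorem sharp_t (s1 : Sl p q) (hq : 2 ≤ q) (e : p' = p + q) (hp : 0 < p) :
    (S.F p q p' q).Sharp (S.D p q) (S.D p' q) := by
  have s3 : Sl p' q := by simpa [e] using s1.add 1 (by omega)
  have P1 := S.hP p q s1
  have P2 := S.hP p' q s3
  have ng := (S.pp p q p' _ s1 hq e rfl hp).nf
  lift q to ℕ using s1.2.1
  lift p to ℕ using hp.le
  have a' : 0 < p := by omega
  obtain rfl : p' = (p + q : ℕ) := by rw [e]; push_cast; rfl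
  simp only [Int.natAbs_natCast] at P1 P2
  refine sharp_of (c := 1 - q) (gap_shear a' (by omega) (nat_cop s1.2.2)) (.inl rfl) ?_ (by omega) (by omega)
    fun j => ?_
  · rw [P1, P2]; push_cast; exact even_shear (nat_cop s1.2.2)
  · rw [show 1 * (1 - (q : ℤ) + 2 * j) = 2 * j + 1 - q by ring, (S.labT _ _ _ s1 hq e j).1,
      (S.labT _ _ _ s1 hq e j).2, ng.dg, Far.D, Far.D, Dc_cast (S.hP _ _ s3),
      Dc_cast (S.hP _ _ s1), P1, P2, D_nat a', D_nat (by omega)]
    push_cast; rfl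

theorem sharp_G (s1 : Sl p q) (hq : 2 ≤ q) (e : p' = p + q) (hr : r = p % q) (hp : 0 < p) :
    (S.G p' q r).Sharp (S.D p' q) (S.DL q r) := by
  have s3 : Sl p' q := by simpa [e] using s1.add 1 (by omega)
  have P2 := S.hP p' q s3
  have P3 : (S.Λ q r).P = q.natAbs := hr ▸ (S.hΛ p q s1 hq).1
  have ng := (S.pp p q p' r s1 hq e hr hp).ng
  have hr' := emod_add e hr
  lift q to ℕ using s1.2.1
  lift p' to ℕ using (by omega)
  have a' : 0 < p' := by omega
  have q0 : 0 < q := by omega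
  have hc := nat_cop s3.2.2
  rw [Int.natAbs_natCast] at P2
  have P4 : (S.Λ q r).P = q := by simpa using P3
  refine sharp_of (c := 1 - q - p') (gap_phi a' q0 hc) (.inl rfl) ?_ (by omega) (by omega) fun j => ?_
  · rw [P2, P4]
    obtain ⟨t, ht⟩ := even_cop hc
    exact ⟨t + 1 - q, by linear_combination ht⟩
  · rw [show 1 * (1 - (q : ℤ) - p' + 2 * j) = 2 * j + 1 - q - p' by ring,
      (S.sG _ _ _ s3 hq hr' j).1, (S.sG _ _ _ s3 hq hr' j).2, ng.dg, DL, Far.D, Dc_cast P3,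
      Dc_cast (S.hP _ _ s3), P2, P4, D_nat a', D_pos q0 (r := p') (hr' ▸ Int.dvd_self_sub_emod), Lens8.Phi]
    push_cast; ring

theorem hd (s1 : Sl p q) (hq : 2 ≤ q) (hr : r = p % q) : (S.Λ q r).d = S.DL q r := by
  obtain ⟨R, hR⟩ := S.toFar.rho_ge
  obtain ⟨i, hi⟩ : ∃ i : ℤ, q * (q * |R| + 1) ≤ p + q * i :=
    ⟨q * |R| + 1 + |p|, by nlinarith [neg_abs_le p, abs_nonneg p]⟩
  have h0 : 0 ≤ q * |R| := by positivity
  have h1 : q ≤ p + q * i := by nlinarith
  have s2 := s1.add i (by omega)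
  have hr2 : r = (p + q * i) % q := by rw [hr]; simp
  generalize p + q * i = a at *
  obtain ⟨b, hb⟩ : ∃ b, b = a + q := ⟨_, rfl⟩
  have s3 : Sl b q := by simpa [hb] using s2.add 1 (by omega)
  have t := S.pp a q b r s2 hq hb hr2 (by omega)
  have pu : (S.Λ q r).Pure := hr2 ▸ (S.hΛ a q s2 hq).2
  have P3 : (S.Λ q r).P = q.natAbs := hr2 ▸ (S.hΛ a q s2 hq).1
  have k1 := S.sharp_t s2 hq hb (by omega)
  have k2 := S.sharp_G s2 hq hb hr2 (by omega)
  obtain ⟨cb, lb⟩ := S.toFar.bnd_pos s3 (by omega)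
  have rb := hR b q s3 (by omega) (by omega)
  have cl := t.ng.cg_t k2 cb
  obtain ⟨x, hx⟩ := cl.exists_rho
  have x0 := t.rho0 (t.ph.F_pure pu) k1 k2 (S.toFar.bnd_pos s2 (by omega)).1 cb cl (hR a q s2 (by omega) h1) rb hx
  obtain rfl : x = 0 := by omega
  have sum := (cl.rho_iff 0).1 hx
  rw [(pure_iff _).1 pu] at sum
  have P2 := S.hP b q s3
  have le : ∀ c, S.DL q r c ≤ (S.Λ q r).d c := fun c => by
    have hc : (c.val : ℤ) < q := by have := ZMod.val_lt c; omega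
    obtain ⟨n, hn, e⟩ : ∃ n ∈ Finset.range ((q * |R|).toNat + 1),
        (S.Y b q).d ((c.val + q * n : ℤ)) = S.D b q ((c.val + q * n : ℤ)) := by
      by_contra! hn
      have h2 := Finset.card_le_card_of_injOn (t := Finset.univ.filter fun s => (S.Y b q).d s ≠ S.D b q s)
        (fun n : ℕ => ((c.val + q * n : ℤ) : ZMod (S.Y b q).P)) (fun n h => by simpa using hn n h)
        fun n h m h' e => by
          have h3 := (ZMod.intCast_eq_intCast_iff _ _ _).1 e
          have h4 : (n : ℤ) ≤ q * |R| := by have := Finset.mem_range.1 h; omega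
          have h5 : (m : ℤ) ≤ q * |R| := by have := Finset.mem_range.1 h'; omega
          have h6 := Int.eq_of_sub_eq_zero (Int.eq_zero_of_abs_lt_dvd h3.dvd (by
            rw [P2, abs_lt]; constructor <;> (push_cast; rw [abs_of_pos (by omega : 0 < b)]; nlinarith)))
          have : (m : ℤ) = n := mul_left_cancel₀ (by omega : q ≠ 0) (by linarith)
          omega
      have h3 := Ob.card_bad cb lb rb
      rw [Finset.card_range] at h2
      have : q * R ≤ q * |R| := mul_le_mul_of_nonneg_left (le_abs_self R) (by omega)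
      omega
    have h4 : (n : ℤ) ≤ q * |R| := by have := Finset.mem_range.1 hn; omega
    obtain ⟨l1, l2⟩ := S.sG b q r s3 hq (emod_add hb hr2) (c.val + q * n)
    have ch : Ch (S.Y b q) (S.Λ q r) (2 * (c.val + q * n) + 1 - q - b) := by
      have := Fam.ch_add (c.val + q * n) t.ng.toLat.ch
      convert this using 1
      omega
    have h5 := t.ng.le ch
    have h6 := k2.eq ch (by
      have : 0 ≤ q * n := by positivity
      have : q * n ≤ q * (q * |R|) := mul_le_mul_of_nonneg_left h4 (by omega)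
      rw [mul_add] at hi
      rw [abs_lt]; constructor <;> omega)
    have h7 : ((c.val + q * n : ℤ) : ZMod (S.Λ q r).P) = c := by
      have : ((q : ℤ) : ZMod (S.Λ q r).P) = 0 := (ZMod.intCast_zmod_eq_zero_iff_dvd _ _).2 (by rw [P3]; simp)
      push_cast
      rw [this]; simp
    rw [l1, l2, h7] at h5 h6
    linarith
  funext c
  have := (Finset.sum_eq_zero_iff_of_nonpos (s := Finset.univ) (f := fun s => (S.DL q r s - (S.Λ q r).d s) / 2)
    fun s _ => by linarith [le s]).1 (by simpa using sum.symm) c (Finset.mem_univ c)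
  linarith

/-- the system -/
def sys : Sys where
  toFar := S.toFar
  labT := S.labT
  swap := S.swap
  shr p q p' s1 hq e := by
    have s3 : Sl p' q := by
      have := s1.add 1 fun h => by
        have h1 : IsUnit q := s1.2.2.isUnit_of_dvd' ⟨-1, by omega⟩ dvd_rfl
        rw [Int.isUnit_iff] at h1; omega
      rwa [mul_one, ← e] at this
    have hr := emod_add e rfl
    exact ⟨{
      Λ := S.Λ q (p % q)
      hP := (S.hΛ p q s1 hq).1
      pure := (S.hΛ p q s1 hq).2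
      hd := fun j => by
        rw [S.hd s1 hq rfl, DL, Dc_cast (S.hΛ p q s1 hq).1, D, D, Int.emod_emod_of_dvd _ dvd_rfl, neg_inj]
      a := ⟨S.G p q _, S.G' p q _, S.sG p q _ s1 hq rfl, S.sG' p q _ s1 hq rfl⟩
      b := ⟨S.G p' q _, S.G' p' q _, e ▸ S.sG p' q _ s3 hq hr, e ▸ S.sG' p' q _ s3 hq hr⟩
      pp := S.pp p q p' _ s1 hq e rfl
      nn := fun h => S.nn p q p' _ s1 hq e rfl (e ▸ h)
      np := fun h h' => S.np p q p' _ s1 hq e rfl h (e ▸ h') }⟩

end Sys0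

end Crest.Agent.X212.Bor5
end
end

-- ▼ part X212/Sw87/Arith
section

/-!
# Row 212 (helper87): the two first moments kill the reduced rank
-/

set_option autoImplicit false

namespace Crest.Agent.X212.Sw87

open Finset

/-- `D₀ = (p² - 1) / 3p` -/
def D0 (p : ℕ) : ℚ := ((p : ℚ) ^ 2 - 1) / (3 * p)

/-- coefficient of the total-degree equation -/
def Aco (p q : ℕ) (i : ℤ) : ℚ := D0 p - q + 2 * (i : ℚ) ^ 2 * (q : ℚ) ^ 2 / p

/-- coefficient of the class-function equation -/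
def Cco (p q : ℕ) (i : ℤ) : ℚ :=
  D0 p - 2 * ((i * q % p : ℤ) : ℚ) * (p - ((i * q % p : ℤ) : ℚ)) / p

theorem D0_pos {p : ℕ} (hp : 2 ≤ p) : 0 < D0 p := by
  have : (2 : ℚ) ≤ p := by exact_mod_cast hp
  unfold D0
  apply div_pos <;> nlinarith

theorem quad_pos {p q : ℚ} (hp : 3 ≤ p ∨ (p = 2 ∧ q ≠ 1)) :
    (3 * p * q - p ^ 2 + 1) * p ^ 2 < 4 * q ^ 2 * (p ^ 2 - 1) := by
  rcases hp with hp | ⟨rfl, hq⟩
  · have h1 : 0 < p ^ 2 - 1 := by nlinarith
    have h2 : 0 < (p ^ 2 - 4) * (7 * p ^ 2 - 4) := by apply mul_pos <;> nlinarith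
    have h3 : 0 < p ^ 2 * ((p ^ 2 - 4) * (7 * p ^ 2 - 4)) := by positivity
    have h4 := sq_nonneg (8 * (p ^ 2 - 1) * q - 3 * p ^ 3)
    by_contra h
    have h5 := mul_le_mul_of_nonneg_left (not_lt.1 h) h1.le
    nlinarith
  · have := sq_pos_of_ne_zero (sub_ne_zero.2 hq)
    nlinarith

theorem key {p q i y : ℚ} (hp : 3 ≤ p ∨ (p = 2 ∧ q ≠ 1)) (hq : 1 ≤ q) (hi : 1 ≤ i ^ 2) (h0 : 0 ≤ y)
    (h1 : y ≤ p) : (3 * p * q - p ^ 2 + 1) * (y * (p - y)) < i ^ 2 * q ^ 2 * (p ^ 2 - 1) := by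
  have hp2 : 2 ≤ p := by rcases hp with h | ⟨h, -⟩ <;> linarith
  have a1 : 0 < q ^ 2 * (p ^ 2 - 1) := by apply mul_pos <;> nlinarith
  have a2 : q ^ 2 * (p ^ 2 - 1) ≤ i ^ 2 * q ^ 2 * (p ^ 2 - 1) := by nlinarith
  have a3 : 0 ≤ y * (p - y) := mul_nonneg h0 (by linarith)
  have a4 : 4 * (y * (p - y)) ≤ p ^ 2 := by nlinarith [sq_nonneg (p - 2 * y)]
  rcases le_or_gt (3 * p * q - p ^ 2 + 1) 0 with c | c
  · have := mul_nonpos_of_nonpos_of_nonneg c a3
    linarith
  · have := quad_pos hp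
    have := mul_le_mul_of_nonneg_left a4 c.le
    linarith

theorem comb_zero {p : ℕ} (hp : 2 ≤ p) (q : ℕ) : Aco p q 0 - (1 - q / D0 p) * Cco p q 0 = 0 := by
  have := (D0_pos hp).ne'
  simp only [Aco, Cco]; simp; field_simp; ring

theorem comb_pos {p q : ℕ} (hp : 2 ≤ p) (hq : 1 ≤ q) (h : ¬ (p = 2 ∧ q = 1)) {i : ℤ} (hi : i ≠ 0) :
    0 < Aco p q i - (1 - q / D0 p) * Cco p q i := by
  have hp' : (2 : ℚ) ≤ p := by exact_mod_cast hp
  have h3 : (3 : ℚ) ≤ p ∨ ((p : ℚ) = 2 ∧ (q : ℚ) ≠ 1) := by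
    rcases hp.eq_or_lt with rfl | h'
    · exact Or.inr ⟨by norm_num, fun e => h ⟨rfl, by exact_mod_cast e⟩⟩
    · exact Or.inl (by exact_mod_cast h')
  have hi' : (1 : ℚ) ≤ (i : ℚ) ^ 2 := by
    have : (1 : ℤ) ≤ i ^ 2 := sq_pos_of_ne_zero hi
    exact_mod_cast this
  have y0 : (0 : ℚ) ≤ ((i * q % p : ℤ) : ℚ) := by
    exact_mod_cast Int.emod_nonneg _ (by omega : (p : ℤ) ≠ 0)
  have y1 : ((i * q % p : ℤ) : ℚ) ≤ p := by
    exact_mod_cast (Int.emod_lt_of_pos _ (by omega : (0 : ℤ) < p)).le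
  have K := key h3 (by exact_mod_cast hq) hi' y0 y1
  have hd : 0 < (p : ℚ) ^ 2 - 1 := by nlinarith
  have hp0 : (0 : ℚ) < p := by linarith
  simp only [Aco, Cco, D0]
  generalize ((i * q % p : ℤ) : ℚ) = y at *
  have e : ((p : ℚ) ^ 2 - 1) / (3 * p) - q + 2 * (i : ℚ) ^ 2 * (q : ℚ) ^ 2 / p -
      (1 - q / (((p : ℚ) ^ 2 - 1) / (3 * p))) * (((p : ℚ) ^ 2 - 1) / (3 * p) - 2 * y * (p - y) / p) =
      2 * ((i : ℚ) ^ 2 * (q : ℚ) ^ 2 * (p ^ 2 - 1) - (3 * p * q - p ^ 2 + 1) * (y * (p - y))) /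
        (p * (p ^ 2 - 1)) := by
    have := hd.ne'
    have := hp0.ne'
    field_simp; ring
  rw [e]
  apply div_pos (by linarith) (mul_pos hp0 hd)

/-- ARITH: the two first moments force all multiplicities to vanish -/
theorem kill {p q : ℕ} (hp : 2 ≤ p) (hq : 1 ≤ q) (h : ¬ (p = 2 ∧ q = 1)) (s : Finset ℤ) (r : ℤ → ℕ)
    (hA : ∑ i ∈ s, (r i : ℚ) * Aco p q i = 0) (hC : ∑ i ∈ s, (r i : ℚ) * Cco p q i = 0) :
    ∀ i ∈ s, r i = 0 := by
  have hB : ∑ i ∈ s, (r i : ℚ) * (Aco p q i - (1 - q / D0 p) * Cco p q i) = 0 := by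
    simp only [mul_sub (r _ : ℚ), sum_sub_distrib, hA, mul_left_comm (r _ : ℚ), ← mul_sum, hC]
    simp
  have nn : ∀ i ∈ s, 0 ≤ (r i : ℚ) * (Aco p q i - (1 - q / D0 p) * Cco p q i) := fun i _ => by
    rcases eq_or_ne i 0 with rfl | hi
    · rw [comb_zero hp, mul_zero]
    · exact mul_nonneg (Nat.cast_nonneg _) (comb_pos hp hq h hi).le
  have h1 : ∀ i ∈ s, i ≠ 0 → r i = 0 := fun i hs hi => by
    have := (sum_eq_zero_iff_of_nonneg nn).1 hB i hs
    exact_mod_cast (mul_eq_zero.1 this).resolve_right (comb_pos hp hq h hi).ne'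
  intro i hs
  rcases eq_or_ne i 0 with rfl | hi
  · rw [sum_eq_single_of_mem 0 hs fun j hj h0 => by rw [h1 j hj h0]; simp] at hC
    have e : Cco p q 0 = D0 p := by simp [Cco]
    rw [e] at hC
    exact_mod_cast (mul_eq_zero.1 hC).resolve_right (D0_pos hp).ne'
  · exact h1 i hs hi

/-- the same for finitely supported multiplicities -/
theorem kill' {p q : ℕ} (hp : 2 ≤ p) (hq : 1 ≤ q) (h : ¬ (p = 2 ∧ q = 1)) (r : ℤ →₀ ℕ)
    (hA : (r.sum fun i n => (n : ℚ) * Aco p q i) = 0)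
    (hC : (r.sum fun i n => (n : ℚ) * Cco p q i) = 0) : r = 0 := by
  ext i
  by_contra hi
  exact hi (kill hp hq h r.support r hA hC i (Finsupp.mem_support_iff.2 hi))

end Crest.Agent.X212.Sw87
end

-- ▼ part X212/Lens17/Defs
section

/-!
# Row 212 (helper17): the correction terms of lens spaces (Ozsváth–Szabó recursion)

`d p q j`, its extension `Phi p q j` to all integers `j`, the shift identity.
-/

set_option autoImplicit false

namespace Crest.Agent.X212.Lens17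

/-- the quadratic term of the recursion -/
def Q (p q : ℕ) (j : ℤ) : ℚ := -1 / 4 + (2 * (j : ℚ) + 1 - p - q) ^ 2 / (4 * p * q)

/-- `d(L(p,q), j)`, `L(p,q)` = `p/q` surgery on the unknot; only `j mod p` matters -/
def d : ℕ → ℕ → ℤ → ℚ
  | _, 0, _ => 0
  | p, q + 1, j => Q p (q + 1) (j % p) - d (q + 1) (p % (q + 1)) (j % p)
termination_by _ q _ => q
decreasing_by exact Nat.mod_lt _ (Nat.succ_pos _)

/-- the recursion formula read at every integer `j` -/
def Phi (p q : ℕ) (j : ℤ) : ℚ := Q p q j - d q p j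

/-- degree of the diagonal letter at position `j` -/
def Psi (p q : ℕ) (j : ℤ) : ℚ := (Phi p q j + Phi p q (j + p)) / 2

theorem Q_comm (p q : ℕ) (j : ℤ) : Q p q j = Q q p j := by
  unfold Q; rw [show (4 : ℚ) * p * q = 4 * q * p by ring]; ring

@[simp] theorem d_zero (p : ℕ) (j : ℤ) : d p 0 j = 0 := by rw [d]

theorem d_pos (p : ℕ) {q : ℕ} (hq : 0 < q) (j : ℤ) :
    d p q j = Q p q (j % p) - d q (p % q) (j % p) := by
  obtain ⟨q, rfl⟩ := Nat.exists_eq_succ_of_ne_zero hq.ne'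
  rw [d]

theorem d_emod (p q : ℕ) (j : ℤ) : d p q (j % p) = d p q j := by
  rcases q.eq_zero_or_pos with rfl | hq
  · simp
  · rw [d_pos p hq, d_pos p hq, Int.emod_emod_of_dvd _ dvd_rfl]

theorem d_congr (p q : ℕ) {j j' : ℤ} (h : j % p = j' % p) : d p q j = d p q j' := by
  rw [← d_emod, h, d_emod]

theorem d_per (p q : ℕ) (j c : ℤ) : d p q (j + p * c) = d p q j :=
  d_congr p q (Int.add_mul_emod_self_left _ _ _)

theorem d_add_self (p q : ℕ) (j : ℤ) : d p q (j + p) = d p q j := by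
  simpa using d_per p q j 1

theorem d_mod {p q : ℕ} (hp : 0 < p) (h : Nat.Coprime p q) (j : ℤ) : d p (q % p) j = d p q j := by
  rcases lt_or_ge q p with hq | hq
  · rw [Nat.mod_eq_of_lt hq]
  rcases hq.eq_or_lt with rfl | hq
  · obtain rfl : p = 1 := by simpa using h
    rw [d_pos 1 one_pos]; simp [Q]; norm_num
  have h0 : (0 : ℤ) ≤ j % p := Int.emod_nonneg _ (by omega)
  have h1 : j % p < p := Int.emod_lt_of_pos _ (by omega)
  rw [d_pos p (hp.trans hq), Nat.mod_eq_of_lt hq, d_pos q hp,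
    Int.emod_eq_of_lt h0 (by omega), Q_comm q p, d_emod]
  ring

theorem d_add {p q : ℕ} (hp : 0 < p) (h : Nat.Coprime p q) (j : ℤ) : d p (q + p) j = d p q j := by
  rw [← d_mod hp (by simpa using h), Nat.add_mod_right, d_mod hp h]

theorem d_eq_Phi_emod {p q : ℕ} (hq : 0 < q) (h : Nat.Coprime p q) (j : ℤ) :
    d p q j = Phi p q (j % p) := by
  rw [d_pos p hq, Phi, d_mod hq h.symm]

theorem d_one (q : ℕ) (j : ℤ) : d 1 q j = 0 := by
  rw [← d_mod one_pos (by simp), Nat.mod_one, d_zero]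

theorem Phi_add_q {p q : ℕ} (hp : 0 < p) (hq : 0 < q) (j : ℤ) :
    Phi p q (j + q) - Phi p q j = (2 * (j : ℚ) + 1 - p) / p := by
  have : (p : ℚ) ≠ 0 := by positivity
  have : (q : ℚ) ≠ 0 := by positivity
  rw [Phi, Phi, d_add_self, Q, Q]; push_cast; field_simp; ring

theorem cast_emod {q : ℕ} (j : ℤ) : ((j % q : ℤ) : ℚ) = j - q * ((j / q : ℤ) : ℚ) := by
  have := Int.emod_add_mul_ediv j q
  rw [eq_sub_iff_add_eq]; exact_mod_cast this

theorem Phi_add_p_of {p q : ℕ} (hp : 0 < p) (hq : 0 < q)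
    (H : ∀ j : ℤ, d q p (j + p) - d q p j = (2 * ((j % q : ℤ) : ℚ) + 1 - q) / q) (j : ℤ) :
    Phi p q (j + p) = Phi p q j + 2 * ((j / q : ℤ) : ℚ) := by
  have : (p : ℚ) ≠ 0 := by positivity
  have : (q : ℚ) ≠ 0 := by positivity
  have h := H j
  rw [sub_eq_iff_eq_add, cast_emod] at h
  rw [Phi, Phi, h, Q, Q]; push_cast; field_simp; ring

theorem Phi_eq_d_of {p q : ℕ} (hp : 0 < p) (hq : 0 < q) (h : Nat.Coprime p q)
    (H : ∀ j : ℤ, Phi p q (j + p) = Phi p q j + 2 * ((j / q : ℤ) : ℚ)) (j : ℤ) (h0 : 0 ≤ j)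
    (h1 : j < p + q) : Phi p q j = d p q j := by
  obtain ⟨n, rfl⟩ := Int.eq_ofNat_of_zero_le h0
  induction n using Nat.strong_induction_on with
  | _ n ih =>
    rcases lt_or_ge n p with hn | hn
    · rw [d_eq_Phi_emod hq h, Int.emod_eq_of_lt h0 (by omega)]
    · obtain ⟨m, rfl⟩ := Nat.exists_eq_add_of_le' hn
      push_cast
      rw [H, d_add_self, ih m (by omega) (by omega) (by omega),
        Int.ediv_eq_zero_of_lt (by omega) (by push_cast at h1; omega)]
      simp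

/-- SHIFT -/
theorem shift {p q : ℕ} (hp : 0 < p) (h : Nat.Coprime p q) (j : ℤ) :
    d p q (j + q) - d p q j = (2 * ((j % p : ℤ) : ℚ) + 1 - p) / p := by
  induction q using Nat.strong_induction_on generalizing p j with
  | _ q ih =>
    rcases q.eq_zero_or_pos with rfl | hq
    · obtain rfl : p = 1 := by simpa using h
      simp
    have H : ∀ j : ℤ, d q p (j + p) - d q p j = (2 * ((j % q : ℤ) : ℚ) + 1 - q) / q := fun j => by
      have hc : Nat.Coprime q (p % q) := by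
        rw [Nat.Coprime, Nat.gcd_comm, ← Nat.gcd_rec]; exact h.symm
      rw [← ih (p % q) (Nat.mod_lt _ hq) hq hc j, d_mod hq h.symm, d_mod hq h.symm]
      congr 1
      exact d_congr _ _ (by push_cast; simp)
    have h0 : (0 : ℤ) ≤ j % p := Int.emod_nonneg _ (by omega)
    have h1 : j % p < p := Int.emod_lt_of_pos _ (by omega)
    have E := Phi_eq_d_of hp hq h (Phi_add_p_of hp hq H)
    rw [← Phi_add_q hp hq, E _ (by omega) (by omega), E _ h0 (by omega), d_emod]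
    congr 1
    exact d_congr _ _ (by simp)

theorem Phi_add_p {p q : ℕ} (hp : 0 < p) (hq : 0 < q) (h : Nat.Coprime p q) (j : ℤ) :
    Phi p q (j + p) = Phi p q j + 2 * ((j / q : ℤ) : ℚ) :=
  Phi_add_p_of hp hq (shift hq h.symm) j

theorem Phi_eq_d {p q : ℕ} (hp : 0 < p) (hq : 0 < q) (h : Nat.Coprime p q) {j : ℤ} (h0 : 0 ≤ j)
    (h1 : j < p + q) : Phi p q j = d p q j :=
  Phi_eq_d_of hp hq h (Phi_add_p hp hq h) j h0 h1

/-- `Psi = Phi + ⌊j/q⌋` -/
theorem Psi_eq {p q : ℕ} (hp : 0 < p) (hq : 0 < q) (h : Nat.Coprime p q) (j : ℤ) :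
    Psi p q j = Phi p q j + ((j / q : ℤ) : ℚ) := by
  rw [Psi, Phi_add_p hp hq h]; ring

/-- on `[0, p+q)` the diagonal degree is `d + ⌊j/q⌋` -/
theorem Psi_eq_d {p q : ℕ} (hp : 0 < p) (hq : 0 < q) (h : Nat.Coprime p q) {j : ℤ} (h0 : 0 ≤ j)
    (h1 : j < p + q) : Psi p q j = d p q j + ((j / q : ℤ) : ℚ) := by
  rw [Psi_eq hp hq h, Phi_eq_d hp hq h h0 h1]

end Crest.Agent.X212.Lens17
end

-- ▼ part X212/Sw87/Win
section

/-!
# Row 212 (helper87): window sums of the lens space correction terms, and the final kill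
-/

set_option autoImplicit false

namespace Crest.Agent.X212.Sw87

open Finset

/-- sum over the window `[n, n+q)` -/
def win (q : ℕ) (f : ℤ → ℚ) (n : ℤ) : ℚ := ∑ b ∈ range q, f (n + b)

theorem win_succ (q : ℕ) (f : ℤ → ℚ) (n : ℤ) : win q f (n + 1) = win q f n + (f (n + q) - f n) := by
  have h1 := sum_range_succ (fun b : ℕ => f (n + b)) q
  have h2 := sum_range_succ' (fun b : ℕ => f (n + b)) q
  have e : ∀ b : ℕ, n + ((b + 1 : ℕ) : ℤ) = n + 1 + b := fun b => by push_cast; ring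
  simp only [e, Nat.cast_zero, add_zero] at h2
  unfold win
  linarith

theorem win_quad {p : ℚ} (hp : p ≠ 0) (q : ℕ) (f : ℤ → ℚ)
    (h : ∀ j : ℤ, f (j + q) - f j = (2 * (j : ℚ) + 1 - p) / p) (n : ℤ) :
    win q f n = win q f 0 + ((n : ℚ) ^ 2 - p * n) / p := by
  induction n using Int.induction_on with
  | zero => simp
  | succ n ih => rw [win_succ, ih, h]; push_cast; field_simp; ring
  | pred n ih =>
    have := win_succ q f (-(n : ℤ) - 1)
    rw [sub_add_cancel, ih, h] at this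
    rw [← sub_eq_iff_eq_add] at this
    rw [← this]; push_cast; field_simp; ring

theorem sum_per {p : ℕ} (d : ℤ → ℚ) (hper : ∀ j, d (j + p) = d j) (n : ℤ) :
    win p d n = win p d 0 := by
  induction n using Int.induction_on with
  | zero => rfl
  | succ n ih => rw [win_succ, ih, hper]; ring
  | pred n ih =>
    have := win_succ p d (-(n : ℤ) - 1)
    rw [sub_add_cancel, ih, hper] at this
    linarith

theorem per_emod {p : ℕ} (d : ℤ → ℚ) (hper : ∀ j, d (j + p) = d j) (j : ℤ) : d (j % p) = d j := by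
  have hp : Function.Periodic d (p : ℤ) := hper
  have := hp.int_mul (j / p) (j % p)
  rw [← this]; congr 1
  have := Int.emod_add_ediv_mul j p
  simpa using this.symm ▸ rfl

theorem sum_y (p : ℕ) : ∀ n : ℕ, ∑ y ∈ range n, ((y : ℚ) ^ 2 - p * y) =
    (n : ℚ) * (n - 1) * (2 * n - 1) / 6 - p * (n * (n - 1)) / 2
  | 0 => by simp
  | n + 1 => by rw [sum_range_succ, sum_y p n]; push_cast; ring

section
variable {p q : ℕ} (hp : 0 < p) (d : ℤ → ℚ) (hper : ∀ j, d (j + p) = d j)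
  (hsh : ∀ j : ℤ, d (j + q) - d j = (2 * ((j % p : ℤ) : ℚ) + 1 - p) / p)
include hp hsh

theorem win_nat (y : ℕ) (hy : y ≤ p) : win q d y = win q d 0 + ((y : ℚ) ^ 2 - p * y) / p := by
  have : (p : ℚ) ≠ 0 := by positivity
  induction y with
  | zero => simp
  | succ y ih =>
    push_cast
    rw [win_succ, ih (by omega), hsh, Int.emod_eq_of_lt (by omega) (by omega)]
    push_cast; field_simp; ring

include hper

theorem win_zero : win q d 0 = q * (∑ j ∈ range p, d j) / p + D0 p / 2 := by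
  have hp' : (p : ℚ) ≠ 0 := by positivity
  have h1 : ∑ y ∈ range p, win q d y = q * ∑ j ∈ range p, d j := by
    unfold win
    rw [sum_comm]
    have : ∀ b ∈ range q, ∑ y ∈ range p, d ((y : ℤ) + b) = ∑ j ∈ range p, d j := fun b _ => by
      have := sum_per d hper b
      simp only [win, zero_add] at this
      rw [← this]; exact sum_congr rfl fun y _ => by rw [add_comm]
    rw [sum_congr rfl this]; simp
  rw [sum_congr rfl fun y hy => win_nat hp d hsh y (mem_range.1 hy).le, sum_add_distrib,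
    ← sum_div, sum_y] at h1
  simp only [sum_const, card_range, nsmul_eq_mul] at h1
  rw [← h1, D0]; field_simp; ring

/-- window sum of `d` -/
theorem win_d (n : ℤ) : win q d n = q * (∑ j ∈ range p, d j) / p + D0 p / 2 -
    ((n % p : ℤ) : ℚ) * (p - ((n % p : ℤ) : ℚ)) / p := by
  have h0 : 0 ≤ n % p := Int.emod_nonneg _ (by omega)
  have h1 : n % p < p := Int.emod_lt_of_pos _ (by omega)
  have e : win q d n = win q d (n % p) :=
    (per_emod (p := p) (win q d) (fun j => sum_congr rfl fun b _ => by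
      rw [add_right_comm, hper]) n).symm
  obtain ⟨y, hy⟩ := Int.eq_ofNat_of_zero_le h0
  rw [e, hy, win_nat hp d hsh y (by omega), win_zero hp d hper hsh]
  push_cast; ring

end

/-- ARITH, abstract form: `d` periodic with the shift identity and total sum zero, `Φ` its quadratic
extension, `Ψ = Φ + ⌊j/q⌋` -/
theorem kill_abs {p q : ℕ} (hp : 2 ≤ p) (hq : 1 ≤ q) (h : ¬ (p = 2 ∧ q = 1)) (d Φ : ℤ → ℚ)
    (hper : ∀ j, d (j + p) = d j)
    (hsh : ∀ j : ℤ, d (j + q) - d j = (2 * ((j % p : ℤ) : ℚ) + 1 - p) / p)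
    (hΦ : ∀ j : ℤ, Φ (j + q) - Φ j = (2 * (j : ℚ) + 1 - p) / p)
    (h0 : ∀ b : ℕ, b < q → Φ b = d b) (hS : ∑ j ∈ range p, d j = 0) (s : Finset ℤ) (r : ℤ → ℕ)
    (hA : ∑ i ∈ s, (r i : ℚ) * ∑ b ∈ range q, (2 * (Φ (i * q + b) + i) - 1) = 0)
    (hC : ∑ i ∈ s, (r i : ℚ) * ∑ b ∈ range q, d (i * q + b) = 0) : ∀ i ∈ s, r i = 0 := by
  have hp0 : 0 < p := by omega
  have hp' : (p : ℚ) ≠ 0 := by positivity
  refine kill hp hq h s r (hA.symm ▸ sum_congr rfl fun i _ => ?_) ?_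
  · congr 1
    have e1 := win_quad hp' q Φ hΦ (i * q)
    have e2 : win q Φ 0 = win q d 0 := sum_congr rfl fun b hb => by
      rw [zero_add, h0 b (mem_range.1 hb)]
    rw [e2, win_zero hp0 d hper hsh, hS] at e1
    simp only [sum_sub_distrib, ← mul_sum, sum_add_distrib, sum_const, card_range, nsmul_eq_mul]
    rw [show ∑ b ∈ range q, Φ (i * q + b) = _ from e1, Aco]
    push_cast; field_simp; ring
  · have : ∀ i ∈ s, (r i : ℚ) * Cco p q i = 2 * ((r i : ℚ) * ∑ b ∈ range q, d (i * q + b)) :=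
      fun i _ => by
        rw [show ∑ b ∈ range q, d (i * q + b) = _ from win_d hp0 d hper hsh (i * q), hS, Cco]; ring
    rw [sum_congr rfl this, ← mul_sum, hC, mul_zero]

/-- ARITH for `Lens8.dL`, `Lens8.Phi` -/
theorem kill8 {p q : ℕ} (hp : 2 ≤ p) (hq : 1 ≤ q) (hc : Nat.Coprime p q) (h : ¬ (p = 2 ∧ q = 1))
    (hS : ∑ j ∈ range p, Lens8.dL p q j = 0) (s : Finset ℤ) (r : ℤ → ℕ)
    (hA : ∑ i ∈ s, (r i : ℚ) * ∑ b ∈ range q, (2 * (Lens8.Phi p q (i * q + b) + i) - 1) = 0)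
    (hC : ∑ i ∈ s, (r i : ℚ) * ∑ b ∈ range q, Lens8.dL p q (i * q + b) = 0) :
    ∀ i ∈ s, r i = 0 := by
  have hp' : (p : ℚ) ≠ 0 := by positivity
  have hq' : (q : ℚ) ≠ 0 := by positivity
  refine kill_abs hp hq h _ _ (Lens8.dL_add p q) (Lens8.dL_shift (by omega) hc) (fun j => ?_)
    (fun b hb => Lens8.Phi_eq (by omega) hq hc (by omega) (by omega)) hS s r hA hC
  rw [Lens8.Phi, Lens8.Phi, Lens8.dL_add]; push_cast; field_simp; ring

/-- ARITH for `Lens17.d`, `Lens17.Psi` -/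
theorem kill17 {p q : ℕ} (hp : 2 ≤ p) (hq : 1 ≤ q) (hc : Nat.Coprime p q) (h : ¬ (p = 2 ∧ q = 1))
    (hS : ∑ j ∈ range p, Lens17.d p q j = 0) (s : Finset ℤ) (r : ℤ → ℕ)
    (hA : ∑ i ∈ s, (r i : ℚ) * ∑ b ∈ range q, (2 * Lens17.Psi p q (i * q + b) - 1) = 0)
    (hC : ∑ i ∈ s, (r i : ℚ) * ∑ b ∈ range q, Lens17.d p q (i * q + b) = 0) :
    ∀ i ∈ s, r i = 0 := by
  refine kill_abs hp hq h _ _ (Lens17.d_add_self p q) (Lens17.shift (by omega) hc)
    (Lens17.Phi_add_q (by omega) hq)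
    (fun b hb => Lens17.Phi_eq_d (by omega) hq hc (by omega) (by omega)) hS s r ?_ hC
  refine hA.symm ▸ sum_congr rfl fun i _ => congrArg _ (sum_congr rfl fun b hb => ?_)
  have hb' := mem_range.1 hb
  rw [Lens17.Psi_eq (by omega) hq hc, add_comm (i * q), Int.add_mul_ediv_right _ _ (by omega),
    Int.ediv_eq_zero_of_lt (by omega) (by omega), zero_add]

end Crest.Agent.X212.Sw87
end

-- ▼ part X212/Frb23/Ring
section

/-! Frobenius lemma for parallel shear handles, at the level of a ring of characteristic two.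
`A i a` is the class `a` component of handle `i`; `P i` is the order of the label group at level
`i`.  The product of `2 ^ k` total maps is the sum of the constant patterns. -/

namespace Frb23

variable {E : Type*} [Ring E]

/-- the constant pattern `a` on the handles `i, …, i + n - 1` -/
def B (A : ℕ → ℤ → E) (i : ℕ) : ℕ → ℤ → E
  | 0, _ => 1
  | n + 1, a => A (i + n) a * B A i n a

/-- product of `T (i + n - 1) * … * T i` -/
def Pr (T : ℕ → E) (i : ℕ) : ℕ → E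
  | 0 => 1
  | n + 1 => T (i + n) * Pr T i n

theorem Pr_add (T : ℕ → E) (i n : ℕ) : ∀ m, Pr T i (n + m) = Pr T (i + n) m * Pr T i n
  | 0 => by simp [Pr]
  | m + 1 => by
    rw [← add_assoc, Pr, Pr, Pr_add T i n m, mul_assoc, add_assoc]

theorem B_eq (A : ℕ → ℤ → E) (i : ℕ) (a : ℤ) : ∀ n, B A i n a = Pr (fun k => A k a) i n
  | 0 => rfl
  | n + 1 => by rw [B, Pr, B_eq A i a n]

theorem B_add (A : ℕ → ℤ → E) (i n m : ℕ) (a : ℤ) :
    B A i (n + m) a = B A (i + n) m a * B A i n a := by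
  simp only [B_eq, Pr_add]

theorem B_one (A : ℕ → ℤ → E) (i : ℕ) (a : ℤ) : B A i 1 a = A i a := by simp [B]

theorem B_succ' (A : ℕ → ℤ → E) (i n : ℕ) (a : ℤ) :
    B A i (n + 1) a = B A (i + 1) n a * A i a := by
  rw [add_comm n 1, B_add, B_one]

/-- the relations between the class components of consecutive handles -/
structure Rel (A : ℕ → ℤ → E) (P : ℕ → ℤ) (q : ℤ) : Prop where
  step : ∀ i, P (i + 1) = P i + q
  ne : ∀ i, P (i + 1) = 0 → ∀ a, A (i + 1) a = 0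
  orth : ∀ i a b, ¬ P (i + 1) ∣ b - a → A (i + 1) b * A i a = 0
  swap : ∀ i a d, A (i + 1) (a + P (i + 1) * d) * A i a
    = A (i + 1) (a - q * d) * A i (a + P i * d)

variable {A : ℕ → ℤ → E} {P : ℕ → ℤ} {q : ℤ}

theorem Rel.P_add (h : Rel A P q) (i : ℕ) : ∀ n : ℕ, P (i + n) = P i + n * q
  | 0 => by simp
  | n + 1 => by rw [← add_assoc, h.step, h.P_add i n]; push_cast; ring

theorem Rel.swap1 (h : Rel A P q) (i : ℕ) (a d : ℤ) : ∀ n : ℕ,
    A (i + n) (a + P (i + n) * d) * B A i n a = B A (i + 1) n (a - q * d) * A i (a + P i * d)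
  | 0 => by simp [B]
  | n + 1 => by
    rw [B, B, ← mul_assoc, ← add_assoc, h.swap, mul_assoc, h.swap1 i a d n, ← mul_assoc,
      add_right_comm i 1 n]

theorem Rel.swapB (h : Rel A P q) (i n : ℕ) (a d : ℤ) : ∀ m : ℕ,
    B A (i + n) m (a + P (i + n) * d) * B A i n a
      = B A (i + m) n (a - m * q * d) * B A i m (a + P i * d)
  | 0 => by simp [B]
  | m + 1 => by
    have e1 : a + P (i + n) * d = (a - m * q * d) + P (i + m + n) * d := by
      rw [add_right_comm, h.P_add (i + n) m]; ring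
    have e2 : a - m * q * d + P (i + m) * d = a + P i * d := by
      rw [h.P_add i m]; ring
    have e3 : a - m * q * d - q * d = a - ((m + 1 : ℕ) : ℤ) * q * d := by push_cast; ring
    rw [B, mul_assoc, h.swapB i n a d m, ← mul_assoc, add_right_comm i n m]
    conv_lhs => rw [e1]
    rw [h.swap1 (i + m) _ d n, e2, e3, B, mul_assoc, add_assoc]

theorem Rel.orthB (h : Rel A P q) (i n m : ℕ) (a b : ℤ) (hd : ¬ P (i + (n + 1)) ∣ b - a) :
    B A (i + (n + 1)) (m + 1) b * B A i (n + 1) a = 0 := by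
  rw [B_succ', B, mul_assoc, ← mul_assoc (A _ b), ← add_assoc, h.orth _ _ _ (by rwa [add_assoc])]
  simp

theorem B_ne (A : ℕ → ℤ → E) (i n k : ℕ) (a : ℤ) (hk : k < n) (h : A (i + k) a = 0) :
    B A i n a = 0 := by
  obtain ⟨m, rfl⟩ := Nat.exists_eq_add_of_lt hk
  rw [show k + m + 1 = (k + 1) + m by ring, B_add, B, h]
  simp

/-- doubling step -/
theorem Rel.double (h : Rel A P q) (h2 : ∀ x : E, x + x = 0) (S : Finset ℤ) (i n : ℕ)
    (hS : ∀ k, k < (n + 1) + (n + 1) → ∀ a, a ∉ S → A (i + k) a = 0) :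
    (∑ b ∈ S, B A (i + (n + 1)) (n + 1) b) * (∑ a ∈ S, B A i (n + 1) a)
      = ∑ a ∈ S, B A i ((n + 1) + (n + 1)) a := by
  classical
  set N := n + 1 with hN
  by_cases hP : P (i + N) = 0
  · have h0 := h.ne (i + n) hP
    rw [Finset.sum_eq_zero fun b _ => B_ne A (i + N) N 0 b (by omega) (h0 b),
      Finset.sum_eq_zero fun b _ => B_ne A i (N + N) N b (by omega) (h0 b), zero_mul]
  let t : ℤ × ℤ → E := fun x => B A (i + N) N x.2 * B A i N x.1
  have h1 : (∑ b ∈ S, B A (i + N) N b) * (∑ a ∈ S, B A i N a) = ∑ x ∈ S ×ˢ S, t x := by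
    rw [Finset.sum_mul_sum, Finset.sum_product, Finset.sum_comm]
  have hmem : ∀ x, t x ≠ 0 → x ∈ S ×ˢ S := by
    intro x hx
    rw [Finset.mem_product]
    constructor
    · by_contra hc
      exact hx (by simp only [t]; rw [B_ne A i N 0 x.1 (by omega) (hS 0 (by omega) _ hc)]; simp)
    · by_contra hc
      exact hx (by
        simp only [t]
        rw [B_ne A (i + N) N 0 x.2 (by omega) (by simpa using hS N (by omega) _ hc)]; simp)
  have hdv : ∀ x, t x ≠ 0 → P (i + N) ∣ x.2 - x.1 := by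
    intro x hx
    by_contra hc
    exact hx (h.orthB i n n x.1 x.2 hc)
  let g : ℤ × ℤ → ℤ × ℤ := fun x =>
    (x.1 + P i * ((x.2 - x.1) / P (i + N)), x.1 - N * q * ((x.2 - x.1) / P (i + N)))
  have hg : ∀ x, t x ≠ 0 → ∃ d, x.2 = x.1 + P (i + N) * d ∧
      g x = (x.1 + P i * d, x.1 - N * q * d) := by
    intro x hx
    obtain ⟨d, hd⟩ := hdv x hx
    refine ⟨d, by linarith, ?_⟩
    simp only [g]; rw [hd, Int.mul_ediv_cancel_left _ hP]
  have hgt : ∀ x, t x ≠ 0 → t (g x) = t x := by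
    intro x hx
    obtain ⟨d, hd, e⟩ := hg x hx
    rw [e]; simp only [t]; rw [hd, h.swapB]
  rw [h1, ← Finset.sum_filter_add_sum_filter_not _ (fun x : ℤ × ℤ => x.1 = x.2)]
  have h3 : ∑ x ∈ (S ×ˢ S).filter (fun x : ℤ × ℤ => x.1 = x.2), t x
      = ∑ a ∈ S, B A i (N + N) a := by
    symm
    refine Finset.sum_bij (fun a _ => (a, a)) ?_ ?_ ?_ ?_
    · intro a ha; simp [ha]
    · intro a _ b _ e; exact (Prod.mk.inj e).1
    · rintro ⟨a, b⟩ hx
      simp only [Finset.mem_filter, Finset.mem_product] at hx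
      obtain ⟨⟨ha, _⟩, rfl⟩ := hx
      exact ⟨a, ha, rfl⟩
    · intro a _; exact B_add A i N N a
  have h4 : ∑ x ∈ (S ×ˢ S).filter (fun x : ℤ × ℤ => ¬ x.1 = x.2), t x = 0 := by
    rw [← Finset.sum_filter_ne_zero]
    have hPe : P (i + N) = P i + N * q := h.P_add i N
    refine Finset.sum_involution (fun x _ => g x) ?_ ?_ ?_ ?_
    · intro x hx
      rw [hgt x (Finset.mem_filter.1 hx).2]; exact h2 _
    · intro x hx _ e
      obtain ⟨hx1, hx2⟩ := Finset.mem_filter.1 hx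
      obtain ⟨d, hd, e'⟩ := hg x hx2
      have hne := (Finset.mem_filter.1 hx1).2
      rw [e'] at e
      have e1 := congrArg Prod.fst e
      have e2 := congrArg Prod.snd e
      simp only at e1 e2
      have : P (i + N) * d = 0 := by
        have : 2 * (P (i + N) * d) = 0 := by rw [hPe] at hd ⊢; linarith
        linarith
      exact hne (by rw [hd, this]; simp)
    · intro x hx
      obtain ⟨hx1, hx2⟩ := Finset.mem_filter.1 hx
      have hne := (Finset.mem_filter.1 hx1).2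
      obtain ⟨d, hd, e'⟩ := hg x hx2
      have h5 : t (g x) ≠ 0 := by rwa [hgt x hx2]
      refine Finset.mem_filter.2 ⟨Finset.mem_filter.2 ⟨hmem _ h5, ?_⟩, h5⟩
      rw [e']; simp only
      intro e
      have : P (i + N) * d = 0 := by rw [hPe]; linarith
      exact hne (by rw [hd, this]; simp)
    · intro x hx
      obtain ⟨_, hx2⟩ := Finset.mem_filter.1 hx
      obtain ⟨d, hd, e'⟩ := hg x hx2
      have e4 : (x.1 - N * q * d - (x.1 + P i * d)) / P (i + N) = -d := by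
        rw [show x.1 - N * q * d - (x.1 + P i * d) = P (i + N) * (-d) by rw [hPe]; ring,
          Int.mul_ediv_cancel_left _ hP]
      rw [e']; simp only [g]; rw [e4]
      ext
      · simp
      · simp only; rw [hd, hPe]; ring
  rw [h3, h4, add_zero]

/-- Frobenius lemma -/
theorem Rel.frob (h : Rel A P q) (h2 : ∀ x : E, x + x = 0) (S : Finset ℤ) : ∀ (k i : ℕ),
    (∀ l, l < 2 ^ k → ∀ a, a ∉ S → A (i + l) a = 0) →
    Pr (fun l => ∑ a ∈ S, A l a) i (2 ^ k) = ∑ a ∈ S, B A i (2 ^ k) a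
  | 0, i, _ => by simp [Pr, B]
  | k + 1, i, hS => by
    obtain ⟨n, hn⟩ : ∃ n, 2 ^ k = n + 1 := ⟨2 ^ k - 1, by have := Nat.one_le_two_pow (n := k); omega⟩
    have e : 2 ^ (k + 1) = 2 ^ k + 2 ^ k := by ring
    rw [e] at hS ⊢
    rw [Pr_add, h.frob h2 S k i (fun l hl => hS l (by omega)),
      h.frob h2 S k (i + 2 ^ k) (fun l hl => by rw [add_assoc]; exact hS _ (by omega))]
    rw [hn] at hS ⊢
    exact h.double h2 S i n hS

end Frb23
end

-- ▼ part X212/Frb23/LG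
section

/-! Labelled graded spaces: pieces `W (label, degree)`, homogeneous maps, transport of the
dimensions of the pieces along bijections. -/

namespace Frb23

open Module

section lat
variable {F V : Type*} [Field F] [AddCommGroup V] [Module F V] {I : Type*}

theorem eq_of_le_ind {f g : I → Submodule F V} (hg : iSupIndep g) (hle : ∀ i, f i ≤ g i)
    (hs : iSup g ≤ iSup f) (i : I) : f i = g i := by
  have h1 : Disjoint (g i) (⨆ (j) (_ : j ≠ i), f j) :=
    (hg i).mono_right (iSup₂_mono fun j _ => hle j)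
  have h2 : g i ≤ f i ⊔ ⨆ (j) (_ : j ≠ i), f j := by
    rw [← iSup_split_single f i]; exact (le_iSup g i).trans hs
  refine le_antisymm (hle i) ?_
  calc g i = (f i ⊔ ⨆ (j) (_ : j ≠ i), f j) ⊓ g i := (inf_eq_right.2 h2).symm
    _ = f i ⊔ ((⨆ (j) (_ : j ≠ i), f j) ⊓ g i) := sup_inf_assoc_of_le _ (hle i)
    _ = f i := by rw [h1.symm.eq_bot, sup_bot_eq]
    _ ≤ f i := le_rfl

theorem ind_biSup {W : I → Submodule F V} (hW : iSupIndep W) {X : Type*} (A : X → Set I)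
    (hA : ∀ x y, x ≠ y → Disjoint (A x) (A y)) : iSupIndep fun x => ⨆ i ∈ A x, W i := by
  intro x
  have h1 : Disjoint (A x) (⋃ y, ⋃ (_ : y ≠ x), A y) := by
    simp only [Set.disjoint_iUnion_right]
    exact fun y hy => hA x y hy.symm
  refine (hW.disjoint_biSup_biSup h1).mono_right ?_
  refine iSup₂_le fun y hy => iSup₂_le fun i hi => ?_
  exact le_iSup₂_of_le (f := fun i (_ : i ∈ ⋃ y, ⋃ (_ : y ≠ x), A y) => W i) i
    (Set.mem_iUnion₂.2 ⟨y, hy, hi⟩) le_rfl

theorem finrank_biSup [FiniteDimensional F V] {W : I → Submodule F V} (hW : iSupIndep W)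
    {X : Type*} (s : Finset X) (φ : X → I) (hφ : Set.InjOn φ s) :
    finrank F (⨆ x ∈ s, W (φ x) : Submodule F V) = ∑ x ∈ s, finrank F (W (φ x)) := by
  classical
  induction s using Finset.induction_on with
  | empty => simp
  | insert a s ha ih =>
    rw [Finset.iSup_insert, Finset.sum_insert ha, ← ih (hφ.mono (by simp))]
    have hd : Disjoint (W (φ a)) (⨆ x ∈ s, W (φ x)) := by
      refine (hW (φ a)).mono_right (iSup₂_le fun x hx => ?_)
      refine le_iSup₂_of_le (f := fun j (_ : j ≠ φ a) => W j) (φ x) ?_ le_rfl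
      intro e
      have := hφ (by simp [hx]) (by simp) e
      exact ha (this ▸ hx)
    have := Submodule.finrank_sup_add_finrank_inf_eq (W (φ a)) (⨆ x ∈ s, W (φ x))
    rw [hd.eq_bot, finrank_bot, add_zero] at this
    exact this

theorem sum_le [FiniteDimensional F V] {W : I → Submodule F V} (hW : iSupIndep W)
    {X : Type*} (s : Finset X) (φ : X → I) (hφ : Set.InjOn φ s) :
    ∑ x ∈ s, finrank F (W (φ x)) ≤ finrank F V := by
  rw [← finrank_biSup hW s φ hφ]; exact Submodule.finrank_le _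

/-- lower bounds with the right total are equalities, and the other pieces vanish -/
theorem eq_of_sum [FiniteDimensional F V] {W : I → Submodule F V} (hW : iSupIndep W)
    {X : Type*} (s : Finset X) (φ : X → I) (hφ : Set.InjOn φ s) (r : X → ℕ)
    (hr : ∀ x ∈ s, r x ≤ finrank F (W (φ x))) (ht : finrank F V ≤ ∑ x ∈ s, r x) :
    (∀ x ∈ s, finrank F (W (φ x)) = r x) ∧ ∀ i, (∀ x ∈ s, φ x ≠ i) → W i = ⊥ := by
  have h1 := sum_le hW s φ hφ
  have h2 : ∑ x ∈ s, r x = ∑ x ∈ s, finrank F (W (φ x)) :=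
    le_antisymm (Finset.sum_le_sum hr) (h1.trans ht)
  refine ⟨fun x hx => ((Finset.sum_eq_sum_iff_of_le hr).1 h2 x hx).symm, fun i hi => ?_⟩
  have h3 : (⨆ x ∈ s, W (φ x) : Submodule F V) = ⊤ := by
    apply Submodule.eq_top_of_finrank_eq
    rw [finrank_biSup hW s φ hφ]; omega
  have h4 : Disjoint (W i) (⨆ x ∈ s, W (φ x)) :=
    (hW i).mono_right (iSup₂_le fun x hx =>
      le_iSup₂_of_le (f := fun j (_ : j ≠ i) => W j) (φ x) (hi x hx) le_rfl)
  rw [h3] at h4
  exact disjoint_top.1 h4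

end lat

/-- `f` maps `A` bijectively onto `B` -/
structure Bij {F V V' : Type*} [Field F] [AddCommGroup V] [Module F V] [AddCommGroup V']
    [Module F V'] (f : V →ₗ[F] V') (A : Submodule F V) (B : Submodule F V') : Prop where
  inj : ∀ x ∈ A, f x = 0 → x = 0
  map : A.map f = B

section bij
variable {F V V' V'' : Type*} [Field F] [AddCommGroup V] [Module F V] [AddCommGroup V']
  [Module F V'] [AddCommGroup V''] [Module F V'']

theorem finrank_map_inj {f : V →ₗ[F] V'} {A : Submodule F V} (h : ∀ x ∈ A, f x = 0 → x = 0) :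
    finrank F (A.map f) = finrank F A := by
  have h1 : Function.Injective (f.domRestrict A) := by
    rw [injective_iff_map_eq_zero]
    intro x hx
    exact Subtype.ext (h x x.2 hx)
  rw [← LinearMap.finrank_range_of_inj h1, LinearMap.range_domRestrict]

theorem inj_of_finrank [FiniteDimensional F V] {f : V →ₗ[F] V'} {A : Submodule F V}
    (h : finrank F A ≤ finrank F (A.map f)) : ∀ x ∈ A, f x = 0 → x = 0 := by
  intro x hx h0
  have h1 := LinearMap.finrank_range_add_finrank_ker (f.domRestrict A)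
  rw [LinearMap.range_domRestrict] at h1
  have h2 : LinearMap.ker (f.domRestrict A) = ⊥ := Submodule.finrank_eq_zero.1 (by omega)
  have h3 : (⟨x, hx⟩ : A) ∈ LinearMap.ker (f.domRestrict A) := h0
  rw [h2] at h3
  exact congrArg Subtype.val ((Submodule.mem_bot F).1 h3)

theorem Bij.fr {f : V →ₗ[F] V'} {A : Submodule F V} {B : Submodule F V'} (h : Bij f A B) :
    finrank F A = finrank F B := by rw [← h.map, finrank_map_inj h.inj]

theorem Bij.of_inj [FiniteDimensional F V'] {f : V →ₗ[F] V'} {A : Submodule F V}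
    {B : Submodule F V'} (h : ∀ x ∈ A, f x = 0 → x = 0) (hle : A.map f ≤ B)
    (hd : finrank F B ≤ finrank F A) : Bij f A B :=
  ⟨h, Submodule.eq_of_le_of_finrank_le hle (by rwa [finrank_map_inj h])⟩

theorem Bij.of_map [FiniteDimensional F V] {f : V →ₗ[F] V'} {A : Submodule F V}
    {B : Submodule F V'} (h : A.map f = B) (hd : finrank F A ≤ finrank F B) : Bij f A B :=
  ⟨inj_of_finrank (by rwa [h]), h⟩

/-- a bijection that factors through a space of the same dimension -/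
theorem Bij.split [FiniteDimensional F V'] {f : V →ₗ[F] V'} {g : V' →ₗ[F] V''} {k : V →ₗ[F] V''}
    {A : Submodule F V} {B : Submodule F V'} {C : Submodule F V''} {c : F} (hc : c ≠ 0)
    (e : g ∘ₗ f = c • k) (h : Bij k A C) (h1 : A.map f ≤ B) :
    finrank F A ≤ finrank F B ∧ (finrank F B ≤ finrank F A → Bij f A B ∧ Bij g B C) := by
  have e' : ∀ x, g (f x) = c • k x := fun x => LinearMap.congr_fun e x
  have hi : ∀ x ∈ A, f x = 0 → x = 0 := by
    intro x hx h0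
    have := e' x
    rw [h0, map_zero, eq_comm, smul_eq_zero] at this
    exact h.inj x hx (this.resolve_left hc)
  refine ⟨by rw [← finrank_map_inj hi]; exact Submodule.finrank_mono h1, fun hd => ?_⟩
  have hb := Bij.of_inj hi h1 hd
  refine ⟨hb, Bij.of_map ?_ (by rw [← h.fr]; exact hd)⟩
  rw [← hb.map, ← Submodule.map_comp, e, Submodule.map_smul _ _ _ hc, h.map]

end bij

/-- a labelled graded space -/
structure LG (F V : Type*) [Field F] [AddCommGroup V] [Module F V] (n : ℕ) where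
  W : ZMod n × ℚ → Submodule F V
  ind : iSupIndep W
  top : iSup W = ⊤

namespace LG
variable {F V V' V'' : Type*} [Field F] [AddCommGroup V] [Module F V] [AddCommGroup V']
  [Module F V'] [AddCommGroup V''] [Module F V''] {n n' n'' : ℕ}

/-- the part of label `s` -/
def L (G : LG F V n) (s : ZMod n) : Submodule F V := ⨆ d, G.W (s, d)

/-- the character -/
noncomputable def c (G : LG F V n) (s : ZMod n) (d : ℚ) : ℕ := finrank F (G.W (s, d))

theorem L_eq (G : LG F V n) (s : ZMod n) :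
    G.L s = ⨆ i ∈ {i : ZMod n × ℚ | i.1 = s}, G.W i := by
  refine le_antisymm (iSup_le fun d => le_iSup₂_of_le
    (f := fun i (_ : i ∈ {i : ZMod n × ℚ | i.1 = s}) => G.W i) (s, d) rfl le_rfl) ?_
  refine iSup₂_le ?_
  rintro ⟨t, d⟩ (rfl : t = s)
  exact le_iSup (fun d => G.W (t, d)) d

theorem L_ind (G : LG F V n) : iSupIndep G.L := by
  have : G.L = fun s => ⨆ i ∈ {i : ZMod n × ℚ | i.1 = s}, G.W i := funext G.L_eq
  rw [this]
  refine ind_biSup G.ind _ fun x y hxy => Set.disjoint_left.2 fun i h1 h2 => hxy ?_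
  exact (Eq.symm h1).trans h2

theorem W_le (G : LG F V n) (s : ZMod n) (d : ℚ) : G.W (s, d) ≤ G.L s :=
  le_iSup (fun d => G.W (s, d)) d

theorem L_top (G : LG F V n) : iSup G.L = ⊤ := by
  rw [eq_top_iff, ← G.top]
  exact iSup_le fun i => (G.W_le i.1 i.2).trans (le_iSup G.L i.1)

theorem c_zero (G : LG F V n) {s : ZMod n} (h : G.L s = ⊥) (d : ℚ) : G.c s d = 0 := by
  have : G.W (s, d) = ⊥ := le_bot_iff.1 (h ▸ G.W_le s d)
  rw [c, this, finrank_bot]

/-- a map of class `(s, s')` and degree `δ` -/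
structure Hom (G : LG F V n) (G' : LG F V' n') (f : V →ₗ[F] V') (s : ZMod n) (s' : ZMod n')
    (δ : ℚ) : Prop where
  map : ∀ d, ∀ x ∈ G.W (s, d), f x ∈ G'.W (s', d + δ)
  zero : ∀ t d, t ≠ s → ∀ x ∈ G.W (t, d), f x = 0

variable {G : LG F V n} {G' : LG F V' n'} {G'' : LG F V'' n''} {f : V →ₗ[F] V'} {s : ZMod n}
  {s' : ZMod n'} {δ : ℚ}

theorem Hom.all (h : Hom G G' f s s' δ) (x : V) : f x ∈ G'.L s' := by
  have h1 : (⊤ : Submodule F V) ≤ (G'.L s').comap f := by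
    rw [← G.top]
    refine iSup_le fun i x hx => ?_
    by_cases e : i.1 = s
    · exact G'.W_le _ _ (h.map i.2 x (e ▸ hx))
    · rw [Submodule.mem_comap, h.zero i.1 i.2 e x hx]; exact zero_mem _
  exact h1 trivial

theorem Hom.map_le (h : Hom G G' f s s' δ) (A : Submodule F V) : A.map f ≤ G'.L s' := by
  rintro _ ⟨x, _, rfl⟩; exact h.all x

theorem Hom.zeroL (h : Hom G G' f s s' δ) {t : ZMod n} (ht : t ≠ s) {x : V} (hx : x ∈ G.L t) :
    f x = 0 := by
  have h1 : G.L t ≤ LinearMap.ker f := iSup_le fun d x hx => h.zero t d ht x hx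
  exact h1 hx

theorem Hom.comp {g : V' →ₗ[F] V''} {s'' : ZMod n''} {δ' : ℚ} (h : Hom G G' f s s' δ)
    (h' : Hom G' G'' g s' s'' δ') : Hom G G'' (g ∘ₗ f) s s'' (δ + δ') :=
  ⟨fun d x hx => by rw [← add_assoc]; exact h'.map _ _ (h.map d x hx),
    fun t d ht x hx => by rw [LinearMap.comp_apply, h.zero t d ht x hx, map_zero]⟩

theorem Hom.orth {g : V' →ₗ[F] V''} {t : ZMod n'} {s'' : ZMod n''} {δ' : ℚ}
    (h : Hom G G' f s s' δ) (h' : Hom G' G'' g t s'' δ') (ht : s' ≠ t) : g ∘ₗ f = 0 :=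
  LinearMap.ext fun x => h'.zeroL ht (h.all x)

theorem Hom.c_eq (h : Hom G G' f s s' δ) (hb : Bij f (G.L s) (G'.L s')) (d : ℚ) :
    G.c s d = G'.c s' (d + δ) := by
  have h1 := eq_of_le_ind (f := fun d => (G.W (s, d)).map f) (g := fun d => G'.W (s', d + δ))
    (G'.ind.comp (f := fun d : ℚ => (s', d + δ)) fun a b e => by simpa using e)
    (fun d => by rintro _ ⟨x, hx, rfl⟩; exact h.map d x hx) (by
      rw [← Submodule.map_iSup]
      exact iSup_le fun d => (G'.W_le _ _).trans hb.map.ge) d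
  rw [c, c, ← h1, finrank_map_inj fun x hx => hb.inj x (G.W_le s d hx)]

/-- a bijection that is a sum of homogeneous maps with different target labels -/
theorem c_sum [FiniteDimensional F V'] (S : Finset ℤ) (D : ℤ → V →ₗ[F] V') (e : ℤ → ℚ)
    (hD : ∀ j ∈ S, Hom G G' (D j) j j (e j)) (hb : Function.Bijective (∑ j ∈ S, D j : V →ₗ[F] V'))
    (hi : Set.InjOn (fun j : ℤ => (j : ZMod n')) S) (s : ZMod n) (d : ℚ) :
    G.c s d = ∑ j ∈ S.filter (fun j : ℤ => (j : ZMod n) = s), G'.c j (d + e j) := by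
  classical
  let A : ZMod n × ℚ → Set (ZMod n' × ℚ) := fun a =>
    {b | ∃ j ∈ S, (j : ZMod n) = a.1 ∧ b = ((j : ZMod n'), a.2 + e j)}
  have hA : ∀ x y, x ≠ y → Disjoint (A x) (A y) := by
    intro x y hxy
    refine Set.disjoint_left.2 ?_
    rintro b ⟨j, hj, h1, rfl⟩ ⟨k, hk, h2, h3⟩
    obtain ⟨h4, h5⟩ := Prod.mk.inj h3
    obtain rfl := hi hj hk h4
    exact hxy (Prod.ext (h1.symm.trans h2) (by simpa using h5))
  have h1 := eq_of_le_ind (f := fun a => (G.W a).map (∑ j ∈ S, D j : V →ₗ[F] V'))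
    (ind_biSup G'.ind A hA) (fun a => by
      rintro _ ⟨x, hx, rfl⟩
      rw [LinearMap.sum_apply]
      refine Submodule.sum_mem _ fun j hj => ?_
      by_cases e1 : (j : ZMod n) = a.1
      · exact Submodule.mem_iSup_of_mem _ (Submodule.mem_iSup_of_mem ⟨j, hj, e1, rfl⟩
          ((hD j hj).map a.2 x (by rw [e1]; exact hx)))
      · rw [(hD j hj).zero a.1 a.2 (Ne.symm e1) x hx]; exact zero_mem _) (by
      rw [← Submodule.map_iSup, G.top, Submodule.map_top, LinearMap.range_eq_top.2 hb.2]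
      exact le_top) (s, d)
  have h2 : (⨆ b ∈ A (s, d), G'.W b) = ⨆ j ∈ S.filter (fun j : ℤ => (j : ZMod n) = s),
      G'.W ((j : ZMod n'), d + e j) := by
    refine le_antisymm (iSup₂_le ?_) (iSup₂_le fun j hj => ?_)
    · rintro b ⟨j, hj, h3, rfl⟩
      exact le_iSup₂_of_le (f := fun (j : ℤ) (_ : j ∈ S.filter (fun j : ℤ => (j : ZMod n) = s)) =>
        G'.W ((j : ZMod n'), d + e j)) j (Finset.mem_filter.2 ⟨hj, h3⟩) le_rfl
    · exact le_iSup₂_of_le (f := fun b (_ : b ∈ A (s, d)) => G'.W b) _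
        ⟨j, (Finset.mem_filter.1 hj).1, (Finset.mem_filter.1 hj).2, rfl⟩ le_rfl
  rw [c, ← finrank_map_inj (f := (∑ j ∈ S, D j : V →ₗ[F] V')) fun x _ h0 =>
    (injective_iff_map_eq_zero _).1 hb.1 x h0, h1, h2,
    finrank_biSup G'.ind _ (fun j : ℤ => ((j : ZMod n'), d + e j)) fun a ha b hb e1 =>
      hi (Finset.mem_filter.1 ha).1 (Finset.mem_filter.1 hb).1 (Prod.mk.inj e1).1]
  rfl

/-- in the same situation every summand is onto its label, the other labels vanish -/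
theorem onto_sum (S : Finset ℤ) (D : ℤ → V →ₗ[F] V')
    (hD : ∀ j ∈ S, ∀ x, D j x ∈ G'.L j) (hb : Function.Surjective (∑ j ∈ S, D j : V →ₗ[F] V'))
    (hi : Set.InjOn (fun j : ℤ => (j : ZMod n')) S) :
    (∀ j ∈ S, LinearMap.range (D j) = G'.L j) ∧
      ∀ t : ZMod n', (∀ j ∈ S, (j : ZMod n') ≠ t) → G'.L t = ⊥ := by
  classical
  let f : ZMod n' → Submodule F V' := fun t =>
    ⨆ j ∈ S.filter (fun j : ℤ => (j : ZMod n') = t), LinearMap.range (D j)
  have h1 := eq_of_le_ind (f := f) G'.L_ind (fun t => iSup₂_le fun j hj => by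
      rintro _ ⟨x, rfl⟩
      exact (Finset.mem_filter.1 hj).2 ▸ hD j (Finset.mem_filter.1 hj).1 x) (by
      intro y _
      obtain ⟨x, rfl⟩ := hb y
      rw [LinearMap.sum_apply]
      refine Submodule.sum_mem _ fun j hj => Submodule.mem_iSup_of_mem (j : ZMod n') ?_
      exact Submodule.mem_iSup_of_mem j (Submodule.mem_iSup_of_mem
        (Finset.mem_filter.2 ⟨hj, rfl⟩) ⟨x, rfl⟩))
  refine ⟨fun j hj => ?_, fun t ht => ?_⟩
  · rw [← h1]
    refine le_antisymm (le_iSup₂_of_le (f := fun (k : ℤ)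
      (_ : k ∈ S.filter (fun k : ℤ => (k : ZMod n') = j)) => LinearMap.range (D k)) j
      (Finset.mem_filter.2 ⟨hj, rfl⟩) le_rfl) (iSup₂_le fun k hk => ?_)
    obtain rfl := hi (Finset.mem_filter.1 hk).1 hj (Finset.mem_filter.1 hk).2
    exact le_rfl
  · rw [← h1, eq_bot_iff]
    exact iSup₂_le fun k hk => (ht k (Finset.mem_filter.1 hk).1 (Finset.mem_filter.1 hk).2).elim

end LG

end Frb23
end

-- ▼ part X212/Frb23/Shear
section

/-! Chains of shear handles on labelled graded spaces. -/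

namespace Frb23

open Module

variable {F : Type*} [Field F] {H : ℕ → Type*} [∀ i, AddCommGroup (H i)] [∀ i, Module F (H i)]

/-- composition of the first `n` maps -/
def D (T : ∀ i, H i →ₗ[F] H (i + 1)) : ∀ n, H 0 →ₗ[F] H n
  | 0 => LinearMap.id
  | n + 1 => T n ∘ₗ D T n

theorem D_fac (T : ∀ i, H i →ₗ[F] H (i + 1)) {i n : ℕ} (h : i ≤ n) :
    ∃ X : H i →ₗ[F] H n, D T n = X ∘ₗ D T i := by
  induction n, h using Nat.le_induction with
  | base => exact ⟨LinearMap.id, rfl⟩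
  | succ n _ ih => obtain ⟨X, e⟩ := ih; exact ⟨T n ∘ₗ X, by rw [D, e]; rfl⟩

theorem D_bij (T : ∀ i, H i →ₗ[F] H (i + 1)) : ∀ n, (∀ i < n, Function.Bijective (T i)) →
    Function.Bijective (D T n)
  | 0, _ => Function.bijective_id
  | n + 1, h => (h n (by omega)).comp (D_bij T n fun i hi => h i (by omega))

/-- the maps of a chain of length `N` as endomorphisms of the product -/
def emb (N : ℕ) (T : ∀ i, H i →ₗ[F] H (i + 1)) (l : ℕ) : Module.End F (∀ i, H i) :=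
  if l < N then LinearMap.single F H (l + 1) ∘ₗ T l ∘ₗ LinearMap.proj l else 0

theorem Pr_emb (N : ℕ) (T : ∀ i, H i →ₗ[F] H (i + 1)) (x : H 0) : ∀ n ≤ N,
    Pr (emb N T) 0 n (Pi.single 0 x) = Pi.single n (D T n x)
  | 0, _ => rfl
  | n + 1, h => by
    rw [Pr, Module.End.mul_apply, Pr_emb N T x n (by omega), zero_add, emb, if_pos (by omega)]
    simp [D]

theorem emb_mul (N : ℕ) (T T' : ∀ i, H i →ₗ[F] H (i + 1)) (l : ℕ) :
    emb N T (l + 1) * emb N T' l = if l + 1 < N then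
      LinearMap.single F H (l + 2) ∘ₗ (T (l + 1) ∘ₗ T' l) ∘ₗ LinearMap.proj l else 0 := by
  by_cases h : l + 1 < N
  · rw [emb, emb, if_pos h, if_pos h, if_pos (by omega)]
    ext x : 1
    simp
  · rw [emb, if_neg h, if_neg h, zero_mul]

/-- a chain of `N` shear handles -/
structure Ch (N : ℕ) (P : ℕ → ℤ) (q : ℤ) (G : ∀ i, LG F (H i) (P i).natAbs)
    (A : ∀ i, ℤ → H i →ₗ[F] H (i + 1)) (ψ : ℕ → ℤ → ℚ) : Prop where
  two : (2 : F) = 0
  step : ∀ i, P (i + 1) = P i + q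
  ne : ∀ i, i + 1 < N → P (i + 1) ≠ 0
  hom : ∀ i < N, ∀ j : ℤ, LG.Hom (G i) (G (i + 1)) (A i j) j j (ψ (i + 1) j - ψ i j)
  fin : ∀ i < N, (Function.support (A i)).Finite
  bij : ∀ i < N, Function.Bijective (∑ᶠ j, A i j : H i →ₗ[F] H (i + 1))
  swap : ∀ i, i + 1 < N → ∀ a d, A (i + 1) (a + P (i + 1) * d) ∘ₗ A i a
    = A (i + 1) (a - q * d) ∘ₗ A i (a + P i * d)

theorem cast_eq_iff (p a b : ℤ) : ((a : ZMod p.natAbs) = b) ↔ p ∣ b - a := by
  rw [ZMod.intCast_eq_intCast_iff_dvd_sub, Int.natAbs_dvd]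

variable {N : ℕ} {P : ℕ → ℤ} {q : ℤ} {G : ∀ i, LG F (H i) (P i).natAbs}
  {A : ∀ i, ℤ → H i →ₗ[F] H (i + 1)} {ψ : ℕ → ℤ → ℚ}

theorem Ch.rel (h : Ch N P q G A ψ) : Rel (fun l a => emb N (fun i => A i a) l) P q where
  step := h.step
  ne := fun i h0 a => by
    rw [emb, if_neg fun hl => h.ne i hl h0]
  orth := fun i a b hd => by
    rw [emb_mul]
    split_ifs with hl
    · rw [(h.hom i (by omega) a).orth (h.hom (i + 1) hl b) (mt (cast_eq_iff _ _ _).1 hd)]
      simp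
    · rfl
  swap := fun i a d => by
    rw [emb_mul, emb_mul]
    split_ifs with hl
    · rw [h.swap i hl]
    · rfl

theorem D_zero (A : ∀ i, ℤ → H i →ₗ[F] H (i + 1)) (a : ℤ) (h : A 0 a = 0) {n : ℕ} (hn : 0 < n) :
    D (fun i => A i a) n = 0 := by
  obtain ⟨X, e⟩ := D_fac (fun i => A i a) (show 1 ≤ n from hn)
  rw [e, D, h]; simp

/-- Frobenius lemma for a chain -/
theorem Ch.frob {k : ℕ} (h : Ch (2 ^ k) P q G A ψ) (S : Finset ℤ)
    (hS : ∀ a, a ∉ S → A 0 a = 0) :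
    D (fun i => ∑ᶠ j, A i j) (2 ^ k) = ∑ j ∈ S, D (fun i => A i j) (2 ^ k) := by
  classical
  have hf : (⋃ l ∈ Set.Iio (2 ^ k), Function.support (A l)).Finite :=
    (Set.finite_Iio _).biUnion fun l hl => h.fin l hl
  let S' := S ∪ hf.toFinset
  have hS' : ∀ l < 2 ^ k, ∀ a, a ∉ S' → A l a = 0 := by
    intro l hl a ha
    by_contra hc
    exact ha (Finset.mem_union_right _ (hf.mem_toFinset.2 (Set.mem_biUnion hl hc)))
  have h1 := h.rel.frob (fun x => by rw [← two_smul F x, h.two, zero_smul]) S' k 0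
    (fun l hl a ha => by rw [zero_add, emb, if_pos hl, hS' l hl a ha]; simp)
  have h2 : (fun l => ∑ a ∈ S', emb (2 ^ k) (fun i => A i a) l)
      = emb (2 ^ k) (fun i => ∑ᶠ j, A i j) := by
    funext l
    by_cases hl : l < 2 ^ k
    · simp only [emb, if_pos hl]
      rw [finsum_eq_sum_of_support_subset (s := S') _ fun a ha => by
        by_contra hc; exact ha (hS' l hl a hc)]
      ext x : 1
      simp only [LinearMap.sum_apply, LinearMap.comp_apply, map_sum]
    · simp [emb, if_neg hl]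
  rw [h2] at h1
  have h3 : ∑ j ∈ S, D (fun i => A i j) (2 ^ k) = ∑ j ∈ S', D (fun i => A i j) (2 ^ k) :=
    Finset.sum_subset Finset.subset_union_left fun a _ ha =>
      D_zero A a (hS a ha) (by positivity)
  rw [h3]
  ext x
  have h4 := congrFun (LinearMap.congr_fun h1 (Pi.single 0 x)) (2 ^ k)
  rw [Pr_emb _ _ x _ le_rfl, LinearMap.sum_apply, Finset.sum_apply] at h4
  simp only [B_eq] at h4
  rw [LinearMap.sum_apply]
  rw [Pi.single_eq_same] at h4
  rw [h4]
  refine Finset.sum_congr rfl fun a _ => ?_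
  rw [Pr_emb _ _ x _ le_rfl, Pi.single_eq_same]

theorem Ch.homD (h : Ch N P q G A ψ) (j : ℤ) : ∀ n, n + 1 ≤ N →
    LG.Hom (G 0) (G (n + 1)) (D (fun i => A i j) (n + 1)) j j (ψ (n + 1) j - ψ 0 j)
  | 0, hn => h.hom 0 hn j
  | n + 1, hn => by
    have := (h.homD j n (by omega)).comp (h.hom (n + 1) hn j)
    rwa [show ψ (n + 1) j - ψ 0 j + (ψ (n + 1 + 1) j - ψ (n + 1) j)
      = ψ (n + 1 + 1) j - ψ 0 j by ring] at this

theorem Ch.homD' (h : Ch N P q G A ψ) (j : ℤ) {n : ℕ} (h0 : 0 < n) (hn : n ≤ N) :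
    LG.Hom (G 0) (G n) (D (fun i => A i j) n) j j (ψ n j - ψ 0 j) := by
  obtain ⟨m, rfl⟩ := Nat.exists_eq_succ_of_ne_zero h0.ne'
  exact h.homD j m hn

theorem Ch.bijD {k : ℕ} (h : Ch (2 ^ k) P q G A ψ) (S : Finset ℤ) (hS : ∀ a, a ∉ S → A 0 a = 0) :
    Function.Bijective (∑ j ∈ S, D (fun i => A i j) (2 ^ k) : H 0 →ₗ[F] H (2 ^ k)) := by
  rw [← h.frob S hS]; exact D_bij _ _ h.bij

variable [∀ i, FiniteDimensional F (H i)]

/-- the character of the start is read off at the end -/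
theorem Ch.c_sum {k : ℕ} (h : Ch (2 ^ k) P q G A ψ) (S : Finset ℤ) (hS : ∀ a, a ∉ S → A 0 a = 0)
    (hi : Set.InjOn (fun j : ℤ => (j : ZMod (P (2 ^ k)).natAbs)) S) (s : ZMod (P 0).natAbs)
    (d : ℚ) : (G 0).c s d = ∑ j ∈ S.filter (fun j : ℤ => (j : ZMod (P 0).natAbs) = s),
      (G (2 ^ k)).c j (d + (ψ (2 ^ k) j - ψ 0 j)) :=
  LG.c_sum S _ _ (fun j _ => h.homD' j (by positivity) le_rfl) (h.bijD S hS) hi s d

omit [∀ i, FiniteDimensional F (H i)] in
theorem Ch.fr (h : Ch N P q G A ψ) {n : ℕ} (hn : n ≤ N) : finrank F (H 0) = finrank F (H n) :=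
  (LinearEquiv.ofBijective _ (D_bij _ n fun i hi => h.bij i (by omega))).finrank_eq

/-- where the alive labels are distinct, they carry everything -/
theorem Ch.lev {k : ℕ} (h : Ch (2 ^ k) P q G A ψ) (S : Finset ℤ) (hS : ∀ a, a ∉ S → A 0 a = 0)
    (hi : Set.InjOn (fun j : ℤ => (j : ZMod (P (2 ^ k)).natAbs)) S) {i : ℕ} (h0 : 0 < i)
    (hk : i ≤ 2 ^ k) (hii : Set.InjOn (fun j : ℤ => (j : ZMod (P i).natAbs)) S) :
    (∀ j ∈ S, finrank F ((G i).L j) = finrank F ((G (2 ^ k)).L j) ∧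
      ∀ X : H i →ₗ[F] H (2 ^ k), D (fun i => A i j) (2 ^ k) = X ∘ₗ D (fun i => A i j) i →
        ∀ x ∈ (G i).L j, X x = 0 → x = 0) ∧
      ∑ j ∈ S, finrank F ((G i).L j) = finrank F (H i) := by
  have hp : 0 < 2 ^ k := by positivity
  obtain ⟨h1, h2⟩ := LG.onto_sum (G' := G (2 ^ k)) S _
    (fun j _ => (h.homD' j hp le_rfl).all) (h.bijD S hS).2 hi
  have h3 : ∀ j ∈ S, ∀ X : H i →ₗ[F] H (2 ^ k),
      D (fun i => A i j) (2 ^ k) = X ∘ₗ D (fun i => A i j) i →
      finrank F ((G (2 ^ k)).L j) ≤ finrank F (((G i).L j).map X) := by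
    intro j hj X e
    refine Submodule.finrank_mono ?_
    rw [← h1 j hj, e]
    rintro _ ⟨x, rfl⟩
    exact ⟨_, (h.homD' j h0 hk).all x, rfl⟩
  have h4 : finrank F (H (2 ^ k)) ≤ ∑ j ∈ S, finrank F ((G (2 ^ k)).L j) := by
    rw [← finrank_biSup (G (2 ^ k)).L_ind S _ hi, ← finrank_top F (H (2 ^ k))]
    refine Submodule.finrank_mono ?_
    rw [← (G (2 ^ k)).L_top]
    refine iSup_le fun t => ?_
    by_cases ht : ∀ j ∈ S, (j : ZMod (P (2 ^ k)).natAbs) ≠ t
    · rw [h2 t ht]; exact bot_le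
    · push Not at ht
      obtain ⟨j, hj, rfl⟩ := ht
      exact le_iSup₂_of_le (f := fun (j : ℤ) (_ : j ∈ S) => (G (2 ^ k)).L j) j hj le_rfl
  have h5 : finrank F (H i) = finrank F (H (2 ^ k)) := (h.fr hk).symm.trans (h.fr le_rfl)
  obtain ⟨h6, -⟩ := eq_of_sum (G i).L_ind S _ hii (fun j => finrank F ((G (2 ^ k)).L j))
    (fun j hj => by
      obtain ⟨X, e⟩ := D_fac (fun i => A i j) hk
      exact (h3 j hj X e).trans (Submodule.finrank_map_le _ _)) (h5 ▸ h4)
  refine ⟨fun j hj => ⟨h6 j hj, fun X e => inj_of_finrank ((h6 j hj).le.trans (h3 j hj X e))⟩, ?_⟩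
  refine le_antisymm (sum_le (G i).L_ind S _ hii) ?_
  rw [Finset.sum_congr rfl h6, h5]; exact h4

/-- the diagonal classes are bijections far out -/
theorem Ch.diag {k : ℕ} (h : Ch (2 ^ k) P q G A ψ) (S : Finset ℤ) (hS : ∀ a, a ∉ S → A 0 a = 0)
    (hi : Set.InjOn (fun j : ℤ => (j : ZMod (P (2 ^ k)).natAbs)) S) {i : ℕ} (h0 : 0 < i)
    (hk : i < 2 ^ k) (hii : Set.InjOn (fun j : ℤ => (j : ZMod (P i).natAbs)) S)
    (hii' : Set.InjOn (fun j : ℤ => (j : ZMod (P (i + 1)).natAbs)) S) {j : ℤ} (hj : j ∈ S) :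
    Bij (A i j) ((G i).L j) ((G (i + 1)).L j) := by
  obtain ⟨h1, h2⟩ := (h.lev S hS hi h0 hk.le hii).1 j hj
  obtain ⟨h3, -⟩ := (h.lev S hS hi (by omega) hk hii').1 j hj
  obtain ⟨X, e⟩ := D_fac (fun i => A i j) (show i + 1 ≤ 2 ^ k from hk)
  refine Bij.of_inj (fun x hx h4 => h2 (X ∘ₗ A i j) (by rw [e]; rfl) x hx (by simp [h4]))
    ((h.hom i hk j).map_le _) (by rw [h1, h3])

end Frb23
end

-- ▼ part X212/Frb23/Farey
section

/-! Large slopes: Farey induction on peg-free pairs. -/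

namespace Frb23

open Module

/-- slopes from which one can shear upwards for ever -/
def Ok (p : ℤ) (q : ℕ) : Prop := 0 < q ∧ IsCoprime p q ∧ (0 < p ∨ 2 ≤ q)

/-- peg-free pairs: the intervals `[j/q, (j+1)/q)` and `[j'/q', (j'+1)/q')` overlap -/
def PF (q q' : ℕ) (j j' : ℤ) : Prop := 1 - (q : ℤ) ≤ q * j' - q' * j ∧ q * j' - q' * j ≤ q' - 1

theorem Ok.add {p : ℤ} {q : ℕ} (h : Ok p q) : Ok (p + q) q :=
  ⟨h.1, by simpa using h.2.1.add_mul_left_left 1, h.2.2.imp (fun _ => by omega) id⟩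

theorem Ok.ne {p : ℤ} {q : ℕ} (h : Ok p q) : p ≠ 0 := by
  rintro rfl
  have h1 := isCoprime_zero_left.1 h.2.1
  rcases Int.isUnit_iff.1 h1 with e | e <;> rcases h.2.2 with h2 | h2 <;> omega

theorem PF.floor {q q' : ℕ} {j j' : ℤ} (hq : 0 < q) (hq' : 0 < q') (h : PF q q' j j') :
    j / q = j' / q' := by
  obtain ⟨h1, h2⟩ := h
  have a1 := Int.emod_add_mul_ediv j q
  have a2 := Int.emod_nonneg j (show (q : ℤ) ≠ 0 by omega)
  have a3 := Int.emod_lt_of_pos j (show (0 : ℤ) < q by omega)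
  have b1 := Int.emod_add_mul_ediv j' q'
  have b2 := Int.emod_nonneg j' (show (q' : ℤ) ≠ 0 by omega)
  have b3 := Int.emod_lt_of_pos j' (show (0 : ℤ) < q' by omega)
  generalize j / q = i at *
  generalize j' / q' = i' at *
  generalize j % q = a at *
  generalize j' % q' = b at *
  subst a1 b1
  have hq0 : (0 : ℤ) < q := by omega
  have hq1 : (0 : ℤ) < q' := by omega
  rcases lt_trichotomy i i' with h | h | h
  · have c1 : (q : ℤ) * q' * 1 ≤ q * q' * (i' - i) := by gcongr; omega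
    have c2 : (q' : ℤ) * a ≤ q' * (q - 1) := by gcongr; omega
    nlinarith [mul_nonneg hq0.le b2]
  · exact h
  · have c1 : (q : ℤ) * q' * 1 ≤ q * q' * (i - i') := by gcongr; omega
    have c2 : (q : ℤ) * b ≤ q * (q' - 1) := by gcongr; omega
    nlinarith [mul_nonneg hq1.le a2]

/-- the positions of height at most `g` -/
noncomputable def Rg (g q : ℕ) : Finset ℤ := Finset.Ico (-(g * q : ℤ)) ((g + 1) * q)

theorem mem_Rg {g q : ℕ} (hq : 0 < q) {j : ℤ} : j ∈ Rg g q ↔ -(g : ℤ) ≤ j / q ∧ j / q ≤ g := by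
  have hq0 : (0 : ℤ) < q := by omega
  rw [Rg, Finset.mem_Ico, Int.le_ediv_iff_mul_le hq0, ← Int.lt_add_one_iff (a := j / q),
    Int.ediv_lt_iff_lt_mul hq0, neg_mul]

theorem sum_Rg {M : Type*} [AddCommMonoid M] {g q : ℕ} (hq : 0 < q) (f : ℤ → M) :
    ∑ j ∈ Rg g q, f j = ∑ i ∈ Finset.Icc (-(g : ℤ)) g, ∑ b ∈ Finset.range q, f (i * q + b) := by
  have hq0 : (0 : ℤ) < q := by omega
  rw [← Finset.sum_product']
  refine Finset.sum_nbij' (fun j => (j / q, (j % q).toNat)) (fun x => x.1 * q + x.2) ?_ ?_ ?_ ?_ ?_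
  · intro j hj
    have a2 := Int.emod_nonneg j hq0.ne'
    have a3 := Int.emod_lt_of_pos j hq0
    simp only [Finset.mem_product, Finset.mem_Icc, Finset.mem_range]
    exact ⟨(mem_Rg hq).1 hj, by omega⟩
  · intro x hx
    simp only [Finset.mem_product, Finset.mem_Icc, Finset.mem_range] at hx
    rw [mem_Rg hq, add_comm, Int.add_mul_ediv_right _ _ hq0.ne',
      Int.ediv_eq_zero_of_lt (by omega) (by omega), zero_add]
    exact hx.1
  · intro j _
    have a2 := Int.emod_nonneg j hq0.ne'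
    simp only
    rw [Int.toNat_of_nonneg a2, mul_comm, add_comm]; exact Int.emod_add_mul_ediv j q
  · intro x hx
    simp only [Finset.mem_product, Finset.mem_Icc, Finset.mem_range] at hx
    ext
    · simp only
      rw [add_comm, Int.add_mul_ediv_right _ _ hq0.ne',
        Int.ediv_eq_zero_of_lt (by omega) (by omega), zero_add]
    · simp only
      rw [add_comm, Int.add_mul_emod_self_right, Int.emod_eq_of_lt (by omega) (by omega)]
      simp
  · intro j _
    have a2 := Int.emod_nonneg j hq0.ne'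
    simp only
    rw [Int.toNat_of_nonneg a2, mul_comm, add_comm, Int.emod_add_mul_ediv]

theorem div_add {q : ℕ} {b : ℕ} (hb : b < q) (i : ℤ) : (i * q + b) / q = i := by
  rw [add_comm, Int.add_mul_ediv_right _ _ (by omega),
    Int.ediv_eq_zero_of_lt (by omega) (by omega), zero_add]

theorem injOn_of_lt {p : ℤ} {S : Finset ℤ} (h : ∀ a ∈ S, ∀ b ∈ S, b - a < p) :
    Set.InjOn (fun j : ℤ => (j : ZMod p.natAbs)) S := by
  intro a ha b hb e
  have h1 := (cast_eq_iff p a b).1 e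
  have h2 := Int.eq_zero_of_abs_lt_dvd h1 (abs_lt.2 ⟨by have := h b hb a ha; omega, h a ha b hb⟩)
  omega

theorem injOn_Rg {p : ℤ} {g q : ℕ} (h : (2 * g + 1) * (q : ℤ) ≤ p) :
    Set.InjOn (fun j : ℤ => (j : ZMod p.natAbs)) (Rg g q) :=
  injOn_of_lt fun a ha b hb => by
    rw [Rg, Finset.mem_Ico] at ha hb
    nlinarith [ha.1, hb.2]

variable {F : Type*} [Field F] {H : ℤ → ℕ → Type*} [∀ p q, AddCommGroup (H p q)]
  [∀ p q, Module F (H p q)]

/-- what is used about the reduced groups -/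
structure Rd (G : ∀ p q, LG F (H p q) p.natAbs) (T : ∀ (p : ℤ) (q : ℕ), ℤ → H p q →ₗ[F] H (p + q) q)
    (E : ∀ p q p' q', ℤ → ℤ → H p q →ₗ[F] H p' q') (Ψ : ℤ → ℕ → ℤ → ℚ) (R : ℕ) : Prop where
  two : (2 : F) = 0
  homT : ∀ p q, Ok p q → ∀ j : ℤ,
    LG.Hom (G p q) (G (p + q) q) (T p q j) j j (Ψ (p + q) q j - Ψ p q j)
  finT : ∀ p q, Ok p q → (Function.support (T p q)).Finite
  bijT : ∀ p q, Ok p q → Function.Bijective (∑ᶠ j, T p q j : H p q →ₗ[F] H (p + q) q)
  swap : ∀ p q, Ok p q → ∀ a d, T (p + q) q (a + (p + q) * d) ∘ₗ T p q a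
    = T (p + q) q (a - q * d) ∘ₗ T p q (a + p * d)
  int : ∀ n : ℤ, 0 < n → ∀ j, ∃ c : F, c ≠ 0 ∧ E n 1 (n + (1 : ℕ)) 1 j j = c • T n 1 j
  homE : ∀ (p : ℤ) (q : ℕ) (p' : ℤ) (q' : ℕ), 0 < p → 0 < q → 0 < q' → p' * q = p * q' + 1 →
    ∀ j j', PF q q' j j' → LG.Hom (G p q) (G p' q') (E p q p' q' j j') j j' (Ψ p' q' j' - Ψ p q j)
  blow : ∀ (p : ℤ) (q : ℕ) (p' : ℤ) (q' : ℕ), 0 < p → 0 < q → 0 < q' → p' * q = p * q' + 1 →
    ∀ j j' m, m = j + j' ∨ m = j + j' + 1 → ∃ c : F, c ≠ 0 ∧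
      E (p + p') (q + q') p' q' m j' ∘ₗ E p q (p + p') (q + q') j m = c • E p q p' q' j j'
  dim : ∀ (p : ℤ) (q : ℕ), 0 < p → 0 < q → IsCoprime p q → finrank F (H p q) = q * R

/-- numerators along a chain of shears -/
def pp (p : ℤ) (q : ℕ) : ℕ → ℤ
  | 0 => p
  | i + 1 => pp p q i + q

theorem pp_eq (p : ℤ) (q : ℕ) : ∀ i, pp p q i = p + i * q
  | 0 => by simp [pp]
  | i + 1 => by rw [pp, pp_eq p q i]; push_cast; ring

theorem Ok.pp {p : ℤ} {q : ℕ} (h : Ok p q) : ∀ i, Ok (pp p q i) q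
  | 0 => h
  | i + 1 => (h.pp i).add

variable {G : ∀ p q, LG F (H p q) p.natAbs} {T : ∀ (p : ℤ) (q : ℕ), ℤ → H p q →ₗ[F] H (p + q) q}
  {E : ∀ p q p' q', ℤ → ℤ → H p q →ₗ[F] H p' q'} {Ψ : ℤ → ℕ → ℤ → ℚ} {R : ℕ}

theorem Rd.ch (h : Rd G T E Ψ R) {p : ℤ} {q : ℕ} (ho : Ok p q) (N : ℕ) :
    Ch (H := fun i => H (pp p q i) q) N (pp p q) q (fun i => G (pp p q i) q)
      (fun i => T (pp p q i) q) (fun i => Ψ (pp p q i) q) where
  two := h.two
  step := fun _ => rfl
  ne := fun i _ => (ho.pp (i + 1)).ne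
  hom := fun i _ => h.homT _ _ (ho.pp i)
  fin := fun i _ => h.finT _ _ (ho.pp i)
  bij := fun i _ => h.bijT _ _ (ho.pp i)
  swap := fun i _ => h.swap _ _ (ho.pp i)

variable [∀ p q, FiniteDimensional F (H p q)]

theorem Bij.smul {V V' : Type*} [AddCommGroup V] [Module F V] [AddCommGroup V'] [Module F V']
    {f : V →ₗ[F] V'} {A : Submodule F V} {B : Submodule F V'} (h : Bij f A B) {c : F}
    (hc : c ≠ 0) : Bij (c • f) A B :=
  ⟨fun x hx e => h.inj x hx ((smul_eq_zero.1 e).resolve_left hc),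
    by rw [Submodule.map_smul _ _ _ hc, h.map]⟩

theorem ok_one : Ok 1 1 := ⟨one_pos, isCoprime_one_left, Or.inl one_pos⟩

/-- large integers -/
theorem Rd.base (h : Rd G T E Ψ R) {g : ℕ} (hg : ∀ a, a ∉ Rg g 1 → T 1 1 a = 0) {n : ℤ}
    (hn : 2 * g + 2 ≤ n) :
    (∀ j ∈ Rg g 1, Bij (E n 1 (n + (1 : ℕ)) 1 j j) ((G n 1).L j) ((G (n + (1 : ℕ)) 1).L j)) ∧
      ∑ j ∈ Rg g 1, finrank F ((G n 1).L j) = R := by
  obtain ⟨i, hi⟩ : ∃ i : ℕ, n = pp 1 1 i := ⟨(n - 1).toNat, by rw [pp_eq]; push_cast; omega⟩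
  subst hi
  have hi : 2 * g + 1 ≤ i := by rw [pp_eq] at hn; push_cast at hn; omega
  have hk : i < 2 ^ i := Nat.lt_two_pow_self
  have inj : ∀ l, i ≤ l → Set.InjOn (fun j : ℤ => (j : ZMod (pp 1 1 l).natAbs)) (Rg g 1) :=
    fun l hl => injOn_Rg (by rw [pp_eq]; push_cast; omega)
  have c := h.ch ok_one (2 ^ i)
  refine ⟨fun j hj => ?_, ?_⟩
  · obtain ⟨a, ha, e⟩ := h.int (pp 1 1 i) (by omega) j
    rw [e]
    exact (c.diag (Rg g 1) hg (inj _ hk.le) (by omega) hk (inj _ le_rfl) (inj _ (by omega))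
      hj).smul ha
  · rw [(c.lev (Rg g 1) hg (inj _ hk.le) (by omega) hk.le (inj _ le_rfl)).2,
      h.dim _ 1 (by omega) one_pos (by simpa using isCoprime_one_right), one_mul]

/-- the vertex property -/
def Vx (G : ∀ p q, LG F (H p q) p.natAbs) (Ψ : ℤ → ℕ → ℤ → ℚ) (g : ℕ) (r : ℤ → ℕ)
    (Pc : ℤ → ℚ → ℕ) (p : ℤ) (q : ℕ) : Prop :=
  ∀ j ∈ Rg g q, finrank F ((G p q).L j) = r (j / q) ∧ ∀ d, (G p q).c j (d + Ψ p q j) = Pc (j / q) d

/-- the edge property -/
def Eg (G : ∀ p q, LG F (H p q) p.natAbs) (E : ∀ p q p' q', ℤ → ℤ → H p q →ₗ[F] H p' q') (g : ℕ)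
    (p : ℤ) (q : ℕ) (p' : ℤ) (q' : ℕ) : Prop :=
  ∀ j j', PF q q' j j' → j ∈ Rg g q → Bij (E p q p' q' j j') ((G p q).L j) ((G p' q').L j')

variable {g : ℕ} {r : ℤ → ℕ} {Pc : ℤ → ℚ → ℕ}

theorem sum_r {q : ℕ} (hq : 0 < q) (hr : ∑ i ∈ Finset.Icc (-(g : ℤ)) g, r i = R) :
    ∑ j ∈ Rg g q, r (j / q) = q * R := by
  rw [sum_Rg hq, ← hr, Finset.mul_sum]
  refine Finset.sum_congr rfl fun i _ => ?_
  rw [Finset.sum_congr rfl fun b hb => by rw [div_add (Finset.mem_range.1 hb)]]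
  simp

/-- the mediant -/
theorem Rd.med (h : Rd G T E Ψ R) (hr : ∑ i ∈ Finset.Icc (-(g : ℤ)) g, r i = R)
    {p p' : ℤ} {q q' : ℕ} (hq : 0 < q) (hq' : 0 < q') (hd : p' * q = p * q' + 1)
    (hp : (2 * g + 1) * (q : ℤ) ≤ p) (hv : Vx G Ψ g r Pc p q) (he : Eg G E g p q p' q') :
    Vx G Ψ g r Pc (p + p') (q + q') ∧ Eg G E g p q (p + p') (q + q') ∧
      Eg G E g (p + p') (q + q') p' q' := by
  have hq0 : (0 : ℤ) < q := by omega
  have hq1 : (0 : ℤ) < q' := by omega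
  have hp0 : 0 < p := lt_of_lt_of_le (by positivity) hp
  have hp' : (2 * g + 1) * (q' : ℤ) ≤ p' := by
    by_contra hc
    have c1 : p' * q ≤ (2 * g + 1) * q' * q := by gcongr; omega
    have c2 : (2 * g + 1) * (q : ℤ) * q' ≤ p * q' := by gcongr
    nlinarith
  have hm : (2 * g + 1) * ((q + q' : ℕ) : ℤ) ≤ p + p' := by push_cast; linarith
  have hm0 : 0 < p + p' := lt_of_lt_of_le (by positivity) hm
  have d1 : (p + p') * q = p * ((q + q' : ℕ) : ℤ) + 1 := by push_cast; linarith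
  have d2 : p' * ((q + q' : ℕ) : ℤ) = (p + p') * q' + 1 := by push_cast; linarith
  have pf1 : ∀ j j' m, PF q q' j j' → m = j + j' ∨ m = j + j' + 1 →
      PF q (q + q') j m ∧ PF (q + q') q' m j' := by
    rintro j j' m ⟨a, b⟩ (rfl | rfl) <;> refine ⟨⟨?_, ?_⟩, ?_, ?_⟩ <;> push_cast <;> linarith
  have key : ∀ j j' m, PF q q' j j' → m = j + j' ∨ m = j + j' + 1 → j ∈ Rg g q →
      finrank F ((G p q).L j) ≤ finrank F ((G (p + p') (q + q')).L m) ∧
      (finrank F ((G (p + p') (q + q')).L m) ≤ finrank F ((G p q).L j) →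
        Bij (E p q (p + p') (q + q') j m) ((G p q).L j) ((G (p + p') (q + q')).L m) ∧
        Bij (E (p + p') (q + q') p' q' m j') ((G (p + p') (q + q')).L m) ((G p' q').L j')) := by
    intro j j' m hpf hm hj
    obtain ⟨c, hc, e⟩ := h.blow p q p' q' hp0 hq hq' hd j j' m hm
    exact Bij.split hc e (he j j' hpf hj)
      ((h.homE p q _ _ hp0 hq (by omega) d1 j m (pf1 j j' m hpf hm).1).map_le _)
  have ex1 : ∀ j m, PF q (q + q') j m → ∃ j', PF q q' j j' ∧ (m = j + j' ∨ m = j + j' + 1) := by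
    rintro j m ⟨a, b⟩
    push_cast at a b
    by_cases hc : (q : ℤ) * m - (q + q') * j ≤ q' - 1
    · exact ⟨m - j, ⟨by linarith, by linarith⟩, Or.inl (by ring)⟩
    · exact ⟨m - j - 1, ⟨by linarith, by linarith⟩, Or.inr (by ring)⟩
  have ex2 : ∀ m j', PF (q + q') q' m j' → ∃ j, PF q q' j j' ∧ (m = j + j' ∨ m = j + j' + 1) := by
    rintro m j' ⟨a, b⟩
    push_cast at a b
    by_cases hc : 1 - (q : ℤ) ≤ (q + q') * j' - q' * m
    · exact ⟨m - j', ⟨by linarith, by linarith⟩, Or.inl (by ring)⟩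
    · exact ⟨m - j' - 1, ⟨by linarith, by linarith⟩, Or.inr (by ring)⟩
  have ex0 : ∀ m : ℤ, ∃ j, PF q (q + q') j m := by
    intro m
    have a1 := Int.emod_add_mul_ediv (q * m) ((q + q' : ℕ) : ℤ)
    have a2 := Int.emod_nonneg (q * m) (show ((q + q' : ℕ) : ℤ) ≠ 0 by omega)
    have a3 := Int.emod_lt_of_pos (q * m) (show (0 : ℤ) < ((q + q' : ℕ) : ℤ) by omega)
    exact ⟨q * m / ((q + q' : ℕ) : ℤ), by linarith, by linarith⟩
  have rg : ∀ j m, PF q (q + q') j m → (j ∈ Rg g q ↔ m ∈ Rg g (q + q')) := fun j m hpf => by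
    rw [mem_Rg hq, mem_Rg (by omega), hpf.floor hq (by omega)]
  have low : ∀ m ∈ Rg g (q + q'),
      r (m / ((q + q' : ℕ) : ℤ)) ≤ finrank F ((G (p + p') (q + q')).L m) := by
    intro m hm
    obtain ⟨j, hj⟩ := ex0 m
    obtain ⟨j', h1, h2⟩ := ex1 j m hj
    rw [← hj.floor hq (by omega), ← (hv j ((rg j m hj).2 hm)).1]
    exact (key j j' m h1 h2 ((rg j m hj).2 hm)).1
  have hco : IsCoprime (p + p') ((q + q' : ℕ) : ℤ) := ⟨q, -p, by linarith⟩
  obtain ⟨eq, -⟩ := eq_of_sum (G (p + p') (q + q')).L_ind (Rg g (q + q')) _ (injOn_Rg hm) _ low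
    (by rw [sum_r (by omega) hr, h.dim _ _ hm0 (by omega) hco])
  have key2 : ∀ j j' m, PF q q' j j' → m = j + j' ∨ m = j + j' + 1 → j ∈ Rg g q →
      Bij (E p q (p + p') (q + q') j m) ((G p q).L j) ((G (p + p') (q + q')).L m) ∧
        Bij (E (p + p') (q + q') p' q' m j') ((G (p + p') (q + q')).L m) ((G p' q').L j') := by
    intro j j' m hpf hm hj
    have h1 := (pf1 j j' m hpf hm).1
    refine (key j j' m hpf hm hj).2 (le_of_eq ?_)
    rw [eq m ((rg j m h1).1 hj), (hv j hj).1, h1.floor hq (by omega)]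
  have e1 : Eg G E g p q (p + p') (q + q') := fun j m hpf hj => by
    obtain ⟨j', h1, h2⟩ := ex1 j m hpf
    exact (key2 j j' m h1 h2 hj).1
  refine ⟨fun m hm => ⟨eq m hm, fun d => ?_⟩, e1, fun m j' hpf hm => ?_⟩
  · obtain ⟨j, hj⟩ := ex0 m
    have hj' := (rg j m hj).2 hm
    rw [← hj.floor hq (by omega), ← (hv j hj').2 d,
      (h.homE p q _ _ hp0 hq (by omega) d1 j m hj).c_eq (e1 j m hj hj')]
    congr 1; ring
  · obtain ⟨j, h1, h2⟩ := ex2 m j' hpf
    exact (key2 j j' m h1 h2 ((rg j m (pf1 j j' m h1 h2).1).2 hm)).2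

/-- Farey induction -/
theorem Rd.edge (h : Rd G T E Ψ R) (hr : ∑ i ∈ Finset.Icc (-(g : ℤ)) g, r i = R)
    (hb : ∀ n : ℤ, 2 * g + 2 ≤ n → Vx G Ψ g r Pc n 1 ∧ Eg G E g n 1 (n + 1) 1) (k : ℕ) :
    ∀ (p p' : ℤ) (q q' : ℕ), q + q' ≤ k → 0 < q → 0 < q' → p' * q = p * q' + 1 →
      (2 * g + 2) * (q : ℤ) ≤ p → Vx G Ψ g r Pc p q ∧ Eg G E g p q p' q' := by
  induction k with
  | zero => intro p p' q q' h1 h2; omega
  | succ k ih =>
    intro p p' q q' hk hq hq' hd hp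
    rcases lt_trichotomy q q' with hl | hl | hl
    · obtain ⟨b, rfl⟩ : ∃ b, q' = q + b := ⟨q' - q, by omega⟩
      obtain ⟨a, rfl⟩ : ∃ a, p' = p + a := ⟨p' - p, by ring⟩
      have hd' : a * q = p * b + 1 := by push_cast at hd; linarith
      obtain ⟨v, e⟩ := ih p a q b (by omega) hq (by omega) hd' hp
      exact ⟨v, (h.med hr hq (by omega) hd' (by nlinarith) v e).2.1⟩
    · subst hl
      have h1 : (q : ℤ) ∣ 1 := ⟨p' - p, by linarith⟩
      obtain rfl : q = 1 := by exact_mod_cast Int.eq_one_of_dvd_one (by omega) h1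
      obtain rfl : p' = p + 1 := by simpa using hd
      exact hb p (by simpa using hp)
    · obtain ⟨b, rfl⟩ : ∃ b, q = b + q' := ⟨q - q', by omega⟩
      obtain ⟨a, rfl⟩ : ∃ a, p = a + p' := ⟨p - p', by ring⟩
      have hd' : p' * b = a * q' + 1 := by push_cast at hd; linarith
      have ha : (2 * g + 2) * (b : ℤ) ≤ a := by
        by_contra hc
        push_cast at hp
        have c0 : (0 : ℤ) < b := by omega
        have c1 : a * (b + q') ≤ ((2 * g + 2) * b - 1) * (b + q') := by gcongr; omega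
        have c2 : (2 * g + 2) * ((b : ℤ) + q') * b ≤ (a + p') * b := by gcongr
        nlinarith
      obtain ⟨v, e⟩ := ih a p' b q' (by omega) (by omega) hq' hd' ha
      obtain ⟨v', -, e'⟩ := h.med hr (by omega) hq' hd' (by nlinarith) v e
      exact ⟨v', e'⟩

end Frb23
end

-- ▼ part X212/Frb23/Main
section

/-! The labelled graded character of the reduced group of every slope; its moments. -/

namespace Frb23

open Module

variable {F : Type*} [Field F] {H : ℤ → ℕ → Type*} [∀ p q, AddCommGroup (H p q)]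
  [∀ p q, Module F (H p q)] [∀ p q, FiniteDimensional F (H p q)]
  {G : ∀ p q, LG F (H p q) p.natAbs} {T : ∀ (p : ℤ) (q : ℕ), ℤ → H p q →ₗ[F] H (p + q) q}
  {E : ∀ p q p' q', ℤ → ℤ → H p q →ₗ[F] H p' q'} {Ψ : ℤ → ℕ → ℤ → ℚ} {R : ℕ}

theorem LG.fin {V : Type*} [AddCommGroup V] [Module F V] [FiniteDimensional F V] {n : ℕ}
    (G : LG F V n) : {i | G.W i ≠ ⊥}.Finite := by
  have := G.ind.fintypeNeBotOfFiniteDimensional
  exact Set.finite_coe_iff.1 (Finite.of_fintype {i // G.W i ≠ ⊥})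

theorem LG.fin_c {V : Type*} [AddCommGroup V] [Module F V] [FiniteDimensional F V] {n : ℕ}
    (G : LG F V n) (s : ZMod n) (a : ℚ) : (Function.support fun d => G.c s (d + a)).Finite := by
  refine (G.fin.preimage (f := fun d : ℚ => (s, d + a))
    (fun a _ b _ e => by simpa using e)).subset fun d hd => ?_
  intro e
  exact hd (by simp only [LG.c]; rw [show G.W (s, d + a) = ⊥ from e, finrank_bot])

theorem LG.sum_c {V : Type*} [AddCommGroup V] [Module F V] [FiniteDimensional F V] {n : ℕ}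
    (G : LG F V n) (s : ZMod n) (a : ℚ) (Dg : Finset ℚ)
    (h : ∀ d, G.c s (d + a) ≠ 0 → d ∈ Dg) : ∑ d ∈ Dg, G.c s (d + a) = finrank F (G.L s) := by
  have e : G.L s = ⨆ d ∈ Dg, G.W (s, d + a) := by
    refine le_antisymm (iSup_le fun d => ?_) (iSup₂_le fun d _ => G.W_le _ _)
    by_cases hd : G.c s (d - a + a) = 0
    · rw [sub_add_cancel, LG.c, Submodule.finrank_eq_zero] at hd
      rw [hd]; exact bot_le
    · exact le_iSup₂_of_le (f := fun (d : ℚ) (_ : d ∈ Dg) => G.W (s, d + a)) (d - a) (h _ hd)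
        (by rw [sub_add_cancel])
  rw [e, finrank_biSup G.ind Dg (fun d => (s, d + a)) fun a _ b _ e => by simpa using e]
  rfl

theorem exists_up {p : ℤ} {q : ℕ} (hq : 0 < q) (hc : IsCoprime p q) :
    ∃ (p' : ℤ) (q' : ℕ), 0 < q' ∧ p' * q = p * q' + 1 := by
  obtain ⟨a, b, e⟩ := hc
  have h1 : (0 : ℤ) < -a + (|a| + 1) * q := by
    have : (|a| + 1) * 1 ≤ (|a| + 1) * (q : ℤ) := by gcongr; omega
    linarith [le_abs_self a]
  refine ⟨b + (|a| + 1) * p, (-a + (|a| + 1) * q).toNat, by omega, ?_⟩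
  rw [Int.toNat_of_nonneg h1.le]; linarith

/-- large slopes -/
theorem Rd.large (h : Rd G T E Ψ R) : ∃ (g : ℕ) (r : ℤ → ℕ) (Pc : ℤ → ℚ → ℕ) (Dg : Finset ℚ),
    ∑ i ∈ Finset.Icc (-(g : ℤ)) g, r i = R ∧
    (∀ i ∈ Finset.Icc (-(g : ℤ)) g, ∑ d ∈ Dg, Pc i d = r i ∧ ∀ d, d ∉ Dg → Pc i d = 0) ∧
    ∀ (p : ℤ) (q : ℕ), 0 < q → IsCoprime p q → (2 * g + 2) * (q : ℤ) ≤ p →
      Vx G Ψ g r Pc p q ∧ ∀ t : ZMod p.natAbs, (∀ j ∈ Rg g q, (j : ZMod p.natAbs) ≠ t) →
        (G p q).L t = ⊥ := by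
  classical
  obtain ⟨g, hg⟩ : ∃ g : ℕ, ∀ a, a ∉ Rg g 1 → T 1 1 a = 0 := by
    obtain ⟨b, hb⟩ := ((h.finT 1 1 ok_one).image fun a : ℤ => a.natAbs).bddAbove
    refine ⟨b, fun a ha => ?_⟩
    by_contra hc
    have := hb ⟨a, hc, rfl⟩
    exact ha (by rw [mem_Rg one_pos]; simp only at this; push_cast; omega)
  let n0 : ℤ := 2 * g + 2
  let r : ℤ → ℕ := fun i => finrank F ((G n0 1).L i)
  let Pc : ℤ → ℚ → ℕ := fun i d => (G n0 1).c i (d + Ψ n0 1 i)
  have e1 : Rg g 1 = Finset.Icc (-(g : ℤ)) g := by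
    ext j; rw [mem_Rg one_pos, Finset.mem_Icc]; simp
  have hr : ∑ i ∈ Finset.Icc (-(g : ℤ)) g, r i = R := e1 ▸ (h.base hg (le_refl n0)).2
  have hE : ∀ n : ℤ, 2 * g + 2 ≤ n → Eg G E g n 1 (n + 1) 1 := by
    rintro n hn j j' ⟨a, b⟩ hj
    obtain rfl : j = j' := by push_cast at a b; omega
    exact (h.base hg hn).1 j hj
  have hV : ∀ n : ℤ, 2 * g + 2 ≤ n → Vx G Ψ g r Pc n 1 := by
    intro n hn
    induction n, hn using Int.leInduction with
    | base => exact fun j _ => by simp [r, Pc, n0]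
    | succ n hn ih =>
      intro j hj
      have hpf : PF 1 1 j j := ⟨by simp, by simp⟩
      have hb := hE n hn j j hpf hj
      refine ⟨hb.fr.symm.trans (ih j hj).1, fun d => ?_⟩
      rw [← (ih j hj).2 d, (h.homE n 1 (n + 1) 1 (by omega) one_pos one_pos (by simp) j j hpf).c_eq hb]
      congr 1; ring
  have hf : (⋃ i ∈ (Finset.Icc (-(g : ℤ)) g : Set ℤ), Function.support (Pc i)).Finite :=
    (Finset.finite_toSet _).biUnion fun i _ => (G n0 1).fin_c _ _
  refine ⟨g, r, Pc, hf.toFinset, hr, fun i hi => ?_, fun p q hq hc hp => ?_⟩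
  · have h1 : ∀ d, Pc i d ≠ 0 → d ∈ hf.toFinset := fun d hd =>
      hf.mem_toFinset.2 (Set.mem_biUnion (Finset.mem_coe.2 hi) hd)
    exact ⟨(G n0 1).sum_c _ _ _ h1, fun d hd => by_contra fun hc => hd (h1 d hc)⟩
  · obtain ⟨p', q', hq', hd⟩ := exists_up hq hc
    have hv := (h.edge hr (fun n hn => ⟨hV n hn, hE n hn⟩) _ p p' q q' le_rfl hq hq' hd hp).1
    have hq0 : (0 : ℤ) < q := by omega
    refine ⟨hv, (eq_of_sum (G p q).L_ind (Rg g q) _ (injOn_Rg (by nlinarith)) (fun j => r (j / q))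
      (fun j hj => (hv j hj).1.ge) ?_).2⟩
    rw [sum_r hq hr, h.dim p q (lt_of_lt_of_le (by positivity) hp) hq hc]

/-- the character of every slope -/
theorem Rd.char (h : Rd G T E Ψ R) : ∃ (g : ℕ) (r : ℤ → ℕ) (Pc : ℤ → ℚ → ℕ) (Dg : Finset ℚ),
    ∑ i ∈ Finset.Icc (-(g : ℤ)) g, r i = R ∧
    (∀ i ∈ Finset.Icc (-(g : ℤ)) g, ∑ d ∈ Dg, Pc i d = r i ∧ ∀ d, d ∉ Dg → Pc i d = 0) ∧
    ∀ (p : ℤ) (q : ℕ), Ok p q → ∀ (s : ZMod p.natAbs) (d : ℚ), (G p q).c s d =
      ∑ j ∈ (Rg g q).filter (fun j : ℤ => (j : ZMod p.natAbs) = s), Pc (j / q) (d - Ψ p q j) := by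
  classical
  obtain ⟨g, r, Pc, Dg, h1, h2, h3⟩ := h.large
  refine ⟨g, r, Pc, Dg, h1, h2, fun p q ho s d => ?_⟩
  let S : Finset ℤ := Rg g q ∪ (h.finT p q ho).toFinset
  obtain ⟨b, hb⟩ := (S.finite_toSet.image fun a : ℤ => a.natAbs).bddAbove
  have hb' : ∀ a ∈ S, a.natAbs ≤ b := fun a ha => hb ⟨a, ha, rfl⟩
  let k : ℕ := p.natAbs + 2 * b + 1 + (2 * g + 2)
  have hq : (1 : ℤ) ≤ q := by have := ho.1; omega
  have hk : (k : ℤ) ≤ (2 ^ k : ℕ) := by exact_mod_cast (Nat.lt_two_pow_self (n := k)).le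
  have hk2 : ((p.natAbs + 2 * b + 1 : ℕ) : ℤ) + (2 * g + 2) * q ≤ (2 ^ k : ℕ) * (q : ℤ) := by
    have c1 : (k : ℤ) * q ≤ (2 ^ k : ℕ) * (q : ℤ) := by gcongr
    have c2 : ((p.natAbs + 2 * b + 1 : ℕ) : ℤ) * 1 ≤ ((p.natAbs + 2 * b + 1 : ℕ) : ℤ) * q := by gcongr
    simp only [k] at c1
    push_cast at c1 c2 ⊢
    linarith
  have hP : ((2 * b + 1 : ℕ) : ℤ) + (2 * g + 2) * q ≤ pp p q (2 ^ k) := by
    rw [pp_eq]; omega
  have hg0 : (0 : ℤ) ≤ (2 * g + 2) * q := by positivity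
  have hi : Set.InjOn (fun j : ℤ => (j : ZMod (pp p q (2 ^ k)).natAbs)) S :=
    injOn_of_lt fun a ha c hc => by have := hb' a ha; have := hb' c hc; omega
  have hS : ∀ a, a ∉ S → T p q a = 0 := fun a ha => by_contra fun hc =>
    ha (Finset.mem_union_right _ ((Set.Finite.mem_toFinset _).2 hc))
  have h4 := (h.ch ho (2 ^ k)).c_sum S hS hi s d
  obtain ⟨h5, h6⟩ := h3 (pp p q (2 ^ k)) q ho.1 (ho.pp _).2.1 (by omega)
  refine Eq.trans h4 ?_
  symm
  refine Finset.sum_subset_zero_on_sdiff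
    (Finset.filter_subset_filter _ Finset.subset_union_left) (fun j hj => ?_) fun j hj => ?_
  · obtain ⟨h7, h8⟩ := Finset.mem_sdiff.1 hj
    obtain ⟨h9, h10⟩ := Finset.mem_filter.1 h7
    refine LG.c_zero _ (h6 _ fun a ha e => h8 (Finset.mem_filter.2 ⟨?_, h10⟩)) _
    exact hi (Finset.mem_union_left _ ha) h9 e ▸ ha
  · rw [← (h5 j (Finset.mem_filter.1 hj).1).2]
    congr 1
    change _ = d + (Ψ (pp p q (2 ^ k)) q j - Ψ p q j)
    ring

/-- `∑ c(s,d) w(s,d)` -/
noncomputable def LG.mom {V : Type*} [AddCommGroup V] [Module F V] {n : ℕ} (G : LG F V n)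
    (w : ZMod n → ℚ → ℚ) : ℚ := ∑ᶠ x : ZMod n × ℚ, (G.c x.1 x.2 : ℚ) * w x.1 x.2

theorem LG.mom_eq {V V' : Type*} [AddCommGroup V] [Module F V] [AddCommGroup V'] [Module F V']
    {n n' : ℕ} (G : LG F V n) (G' : LG F V' n') (φ : ZMod n ≃ ZMod n')
    (h : ∀ s d, G.c s d = G'.c (φ s) d) (w : ZMod n' → ℚ → ℚ) :
    G.mom (fun s => w (φ s)) = G'.mom w := by
  rw [LG.mom, LG.mom, ← finsum_comp_equiv (φ.prodCongr (Equiv.refl ℚ))]
  simp [h]

/-- moments of the character -/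
theorem Rd.mom (h : Rd G T E Ψ R) : ∃ (g : ℕ) (r : ℤ → ℕ) (Γ : ℤ → ℚ),
    ∑ i ∈ Finset.Icc (-(g : ℤ)) g, r i = R ∧
    ∀ (p : ℤ) (q : ℕ), Ok p q → ∀ (a : ℚ) (u : ZMod p.natAbs → ℚ),
      (G p q).mom (fun s d => a * d + u s) = ∑ i ∈ Finset.Icc (-(g : ℤ)) g,
        (q * a * Γ i + r i * ∑ b ∈ Finset.range q,
          (a * Ψ p q (i * q + b) + u ((i * q + b : ℤ) : ZMod p.natAbs))) := by
  classical
  obtain ⟨g, r, Pc, Dg, h1, h2, h3⟩ := h.char
  refine ⟨g, r, fun i => ∑ e ∈ Dg, (Pc i e : ℚ) * e, h1, fun p q ho a u => ?_⟩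
  let φ : ℤ × ℚ → ZMod p.natAbs × ℚ := fun y => (y.1, y.2 + Ψ p q y.1)
  let S := Rg g q ×ˢ Dg
  have h4 : ∀ x : ZMod p.natAbs × ℚ, ((G p q).c x.1 x.2 : ℚ)
      = ∑ y ∈ S.filter (fun y => φ y = x), (Pc (y.1 / q) y.2 : ℚ) := by
    intro x
    rw [h3 p q ho, Nat.cast_sum, Finset.sum_filter, Finset.sum_filter, Finset.sum_product]
    refine Finset.sum_congr rfl fun j hj => ?_
    have hj' := Finset.mem_Icc.2 ((mem_Rg ho.1).1 hj)
    by_cases e : (j : ZMod p.natAbs) = x.1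
    · rw [if_pos e, Finset.sum_eq_single (x.2 - Ψ p q j)]
      · rw [if_pos (Prod.ext e (by simp [φ]))]
      · intro b _ hb
        exact if_neg fun e' => hb (by rw [← e']; simp [φ])
      · intro hb
        rw [(h2 _ hj').2 _ hb]; simp
    · rw [if_neg e]
      exact (Finset.sum_eq_zero fun b _ => if_neg fun e' => e (by rw [← e'])).symm
  rw [LG.mom, finsum_eq_sum_of_support_subset (s := S.image φ) _ fun x hx => by
    by_contra hc
    refine hx ?_
    simp only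
    rw [h4, Finset.sum_eq_zero fun y hy => (hc (Finset.mem_coe.2 (Finset.mem_image.2
      ⟨y, (Finset.mem_filter.1 hy).1, (Finset.mem_filter.1 hy).2⟩))).elim, zero_mul]]
  have h5 : ∑ x ∈ S.image φ, ((G p q).c x.1 x.2 : ℚ) * (a * x.2 + u x.1)
      = ∑ y ∈ S, (Pc (y.1 / q) y.2 : ℚ) * (a * (φ y).2 + u (φ y).1) := by
    rw [← Finset.sum_fiberwise_of_maps_to (g := φ) fun y hy => Finset.mem_image_of_mem φ hy]
    refine Finset.sum_congr rfl fun x _ => ?_
    rw [h4, Finset.sum_mul]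
    exact Finset.sum_congr rfl fun y hy => by rw [(Finset.mem_filter.1 hy).2]
  rw [h5, Finset.sum_product, sum_Rg ho.1]
  refine Finset.sum_congr rfl fun i hi => ?_
  have e0 : ∀ x : ℚ, q * a * x = ∑ _b ∈ Finset.range q, a * x := fun x => by simp [mul_assoc]
  rw [← (h2 i hi).1, e0, Finset.mul_sum (Finset.range q), ← Finset.sum_add_distrib]
  refine Finset.sum_congr rfl fun b hb => ?_
  simp only [φ]
  rw [div_add (Finset.mem_range.1 hb), Nat.cast_sum, Finset.sum_mul, Finset.mul_sum,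
    ← Finset.sum_add_distrib]
  exact Finset.sum_congr rfl fun e _ => by ring

/-- the two sums for a pair of slopes with the same denominator and isomorphic groups -/
theorem Rd.two_sums (h : Rd G T E Ψ R) : ∃ (g : ℕ) (r : ℤ → ℕ),
    ∑ i ∈ Finset.Icc (-(g : ℤ)) g, r i = R ∧
    ∀ (p p' : ℤ) (q : ℕ), Ok p q → Ok p' q → ∀ φ : ZMod p.natAbs ≃ ZMod p'.natAbs,
      (∀ s d, (G p q).c s d = (G p' q).c (φ s) d) →
      ∑ i ∈ Finset.Icc (-(g : ℤ)) g, (r i : ℚ) * ∑ b ∈ Finset.range q,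
        (Ψ p q (i * q + b) - Ψ p' q (i * q + b)) = 0 ∧
      ∀ u : ZMod p'.natAbs → ℚ, ∑ i ∈ Finset.Icc (-(g : ℤ)) g, (r i : ℚ) * ∑ b ∈ Finset.range q,
        (u (φ ((i * q + b : ℤ) : ZMod p.natAbs)) - u ((i * q + b : ℤ) : ZMod p'.natAbs)) = 0 := by
  obtain ⟨g, r, Γ, h1, h2⟩ := h.mom
  refine ⟨g, r, h1, fun p p' q ho ho' φ hφ => ?_⟩
  have key : ∀ (a : ℚ) (u : ZMod p'.natAbs → ℚ),
      ∑ i ∈ Finset.Icc (-(g : ℤ)) g, (r i : ℚ) * ∑ b ∈ Finset.range q,
        ((a * Ψ p q (i * q + b) + u (φ ((i * q + b : ℤ) : ZMod p.natAbs)))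
          - (a * Ψ p' q (i * q + b) + u ((i * q + b : ℤ) : ZMod p'.natAbs))) = 0 := by
    intro a u
    have e := LG.mom_eq (G p q) (G p' q) φ hφ (fun s d => a * d + u s)
    rw [h2 p' q ho' a u, h2 p q ho a fun s => u (φ s), ← sub_eq_zero, ← Finset.sum_sub_distrib] at e
    rw [← e]
    refine Finset.sum_congr rfl fun i _ => ?_
    rw [Finset.sum_sub_distrib]; ring
  exact ⟨by simpa using key 1 0, fun u => by simpa using key 0 u⟩

end Frb23
end

-- ▼ part X212/Lens17/Gap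
section

/-!
# Row 212 (helper17): the gap on a Farey edge (Frøyshov inequality and matching for lens spaces)
-/

set_option autoImplicit false
set_option linter.unusedSectionVars false

namespace Crest.Agent.X212.Lens17

/-- `K·Σ` for the class `(j,j')` on the edge `(p,q) → (p',q')` -/
def kap (p q p' q' : ℕ) (j j' : ℤ) : ℤ := p * (2 * j' + 1 - q') - p' * (2 * j + 1 - q)

/-- degree of a negative definite 2-handle map, `K² = -κ²/(p p')` -/
def deg (p p' : ℕ) (κ : ℤ) : ℚ := (1 - (κ : ℚ) ^ 2 / (p * p')) / 4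

/-- the gap -/
def G (p q p' q' : ℕ) (j j' : ℤ) : ℚ :=
  d p' q' j' - d p q j - deg p p' (kap p q p' q' j j')

/-- a Farey edge between positive slopes (the second may be `∞ = (1,0)`) -/
structure Edge (p q p' q' : ℕ) : Prop where
  hp : 0 < p
  det : q * p' = p * q' + 1

namespace Edge
variable {p q p' q' : ℕ} (e : Edge p q p' q')
include e

theorem hp' : 0 < p' := Nat.pos_of_ne_zero fun h => by have := e.det; simp [h] at this
theorem hq : 0 < q := Nat.pos_of_ne_zero fun h => by have := e.det; simp [h] at this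
theorem detZ : (q : ℤ) * p' = p * q' + 1 := by exact_mod_cast e.det
theorem detQ : (q : ℚ) * p' = p * q' + 1 := by exact_mod_cast e.det

theorem cop : Nat.Coprime p q := by
  rw [← Nat.isCoprime_iff_coprime]; exact ⟨-q', p', by linear_combination e.detZ⟩

theorem cop' : Nat.Coprime p' q' := by
  rw [← Nat.isCoprime_iff_coprime]; exact ⟨q, -p, by linear_combination e.detZ⟩

theorem swap (h : 0 < q') : Edge q' p' q p := ⟨h, by have := e.det; nlinarith⟩

theorem G_per (j j' c : ℤ) : G p q p' q' (j + p * c) (j' + p' * c) = G p q p' q' j j' := by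
  rw [G, G, d_per, d_per]; congr 2; simp only [kap]; ring

theorem G_step (j j' : ℤ) : G p q p' q' (j + q) (j' + q') =
    G p q p' q' j j' + 2 * (((j / p : ℤ) : ℚ) - ((j' / p' : ℤ) : ℚ)) := by
  have h1 := shift e.hp e.cop j
  have h2 := shift e.hp' e.cop' j'
  have := e.hp; have := e.hp'
  have : (p : ℚ) ≠ 0 := by positivity
  have : (p' : ℚ) ≠ 0 := by positivity
  have k : kap p q p' q' (j + q) (j' + q') = kap p q p' q' j j' - 2 := by
    simp only [kap]; linear_combination (-2) * e.detZ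
  have k2 : (kap p q p' q' j j' : ℚ) = 2 * (p * j' - p' * j) + p - p' + 1 := by
    simp only [kap]; push_cast; linear_combination e.detQ
  rw [sub_eq_iff_eq_add, cast_emod] at h1 h2
  rw [G, G, h1, h2, k, deg, deg]; push_cast; rw [k2]; field_simp; ring

/-- the `Phi` gap is the gap of the swapped edge -/
theorem Phi_gap (h : 0 < q') (j j' : ℤ) :
    Phi p' q' j' - Phi p q j - deg p p' (kap p q p' q' j j') = G q' p' q p j' j := by
  have := e.hp; have := e.hp'; have := e.hq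
  have : (p : ℚ) ≠ 0 := by positivity
  have : (p' : ℚ) ≠ 0 := by positivity
  have : (q : ℚ) ≠ 0 := by positivity
  have : (q' : ℚ) ≠ 0 := by positivity
  have k : (kap p q p' q' j j' : ℚ) = p * (2 * j' + 1 - p' - q') - p' * (2 * j + 1 - p - q) := by
    simp only [kap]; push_cast; ring
  have k' : (kap q' p' q p j' j : ℚ) = q' * (2 * j + 1 - p - q) - q * (2 * j' + 1 - p' - q') := by
    simp only [kap]; push_cast; ring
  rw [G, Phi, Phi, deg, deg, k, k', Q, Q]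
  generalize (2 * (j : ℚ) + 1 - p - q) = a
  generalize (2 * (j' : ℚ) + 1 - p' - q') = a'
  have D := e.detQ
  field_simp
  linear_combination (a ^ 2 * p' * q' - a' ^ 2 * p * q) * D

end Edge

theorem G_add {p q p' q' : ℕ} (e : Edge p q p' q') (j j' : ℤ) :
    G p (q + p) p' (q' + p') j j' = G p q p' q' j j' := by
  rw [G, G, d_add e.hp e.cop, d_add e.hp' e.cop']; congr 2; simp only [kap]; push_cast; ring

theorem G_zero {p q p' q' : ℕ} (e : Edge p q p' q') : G p q p' q' 0 0 = 0 := by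
  induction hn : p + q + p' + q' using Nat.strong_induction_on generalizing p q p' q' with
  | _ n ih =>
    have red : ∀ {p q p' q' : ℕ}, Edge p q p' q' → p + q + p' + q' = n → p' ≤ q' →
        G p q p' q' 0 0 = 0 := fun {p q p' q'} e hn h => by
      obtain ⟨r', rfl⟩ := Nat.exists_eq_add_of_le' h
      have hq : p ≤ q := by
        by_contra hh
        have := e.det; have := e.hp'; nlinarith
      obtain ⟨r, rfl⟩ := Nat.exists_eq_add_of_le' hq
      have e' : Edge p r p' r' := ⟨e.hp, by have := e.det; nlinarith⟩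
      rw [G_add e', ih _ (by have := e.hp; omega) e' rfl]
    rcases q'.eq_zero_or_pos with rfl | hq'
    · have hd := e.det
      rw [mul_zero, zero_add] at hd
      obtain rfl := Nat.eq_one_of_mul_eq_one_right hd
      obtain rfl := Nat.eq_one_of_mul_eq_one_left hd
      have := e.hp
      have : (p : ℚ) ≠ 0 := by positivity
      rw [G, d_pos p one_pos, d_one, d_one]
      simp only [kap, deg, Q, Int.zero_emod]; push_cast; field_simp; ring
    rcases le_or_gt p' q' with h | h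
    · exact red e hn h
    · have hq : q ≤ p := by
        by_contra hh
        have := e.det; nlinarith
      rw [← red (e.swap hq') (by omega) hq, ← e.Phi_gap hq', G,
        Phi_eq_d e.hp e.hq e.cop le_rfl (by have := e.hp; omega),
        Phi_eq_d e.hp' hq' e.cop' le_rfl (by omega)]

namespace Edge
variable {p q p' q' : ℕ} (e : Edge p q p' q')
include e

theorem fl_ge {s : ℤ} (hs : 0 ≤ s) : s * q' / p' ≤ s * q / p := by
  have hp : (0 : ℤ) < p := by have := e.hp; omega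
  have hp' : (0 : ℤ) < p' := by have := e.hp'; omega
  rw [Int.le_ediv_iff_mul_le hp]
  have h := Int.ediv_mul_le (s * q') hp'.ne'
  have D := e.detZ
  generalize s * q' / p' = c at *
  by_contra hh
  have : s * q + 1 ≤ c * p := by omega
  nlinarith

theorem fl_le {s : ℤ} (hs : s ≤ 0) : s * q / p ≤ s * q' / p' := by
  have hp : (0 : ℤ) < p := by have := e.hp; omega
  have hp' : (0 : ℤ) < p' := by have := e.hp'; omega
  rw [Int.le_ediv_iff_mul_le hp']
  have h := Int.ediv_mul_le (s * q) hp.ne'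
  have D := e.detZ
  generalize s * q / p = c at *
  by_contra hh
  have : s * q' + 1 ≤ c * p' := by omega
  nlinarith

theorem fl_eq {s : ℤ} (h0 : -(p' : ℤ) < s) (h1 : s < p) : s * q / p = s * q' / p' := by
  have hp : (0 : ℤ) < p := by have := e.hp; omega
  have hp' : (0 : ℤ) < p' := by have := e.hp'; omega
  have D := e.detZ
  rcases le_total 0 s with hs | hs
  · refine le_antisymm ?_ (e.fl_ge hs)
    rw [Int.le_ediv_iff_mul_le hp']
    have h := Int.ediv_mul_le (s * q) hp.ne'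
    generalize s * q / p = c at *
    by_contra hh
    have : s * q' + 1 ≤ c * p' := by omega
    nlinarith
  · refine le_antisymm (e.fl_le hs) ?_
    rw [Int.le_ediv_iff_mul_le hp]
    have h := Int.ediv_mul_le (s * q') hp'.ne'
    generalize s * q' / p' = c at *
    by_contra hh
    have : s * q + 1 ≤ c * p := by omega
    nlinarith

theorem fl_p : (p : ℤ) * q' / p' < p * q / p := by
  have hp : (0 : ℤ) < p := by have := e.hp; omega
  have hp' : (0 : ℤ) < p' := by have := e.hp'; omega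
  rw [Int.mul_ediv_cancel_left _ hp.ne', Int.ediv_lt_iff_lt_mul hp']
  have D := e.detZ
  omega

theorem fl_p' : (-p' : ℤ) * q / p < -p' * q' / p' := by
  have hp : (0 : ℤ) < p := by have := e.hp; omega
  have hp' : (0 : ℤ) < p' := by have := e.hp'; omega
  rw [show (-p' : ℤ) * q' = p' * (-q') by ring, Int.mul_ediv_cancel_left _ hp'.ne',
    Int.ediv_lt_iff_lt_mul hp]
  have D := e.detZ
  nlinarith

theorem g_step (t : ℤ) : G p q p' q' ((t + 1) * q) ((t + 1) * q') =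
    G p q p' q' (t * q) (t * q') + 2 * (((t * q / p : ℤ) : ℚ) - ((t * q' / p' : ℤ) : ℚ)) := by
  rw [add_mul, add_mul, one_mul, one_mul, e.G_step]

theorem g_main (t : ℤ) : ∃ k : ℕ, G p q p' q' (t * q) (t * q') = 2 * k ∧
    (k = 0 ↔ -(p' : ℤ) < t ∧ t ≤ p) := by
  have hp := e.hp; have hp' := e.hp'
  induction t using Int.induction_on with
  | zero => exact ⟨0, by simpa using G_zero e, by simp; omega⟩
  | succ t ih =>
    obtain ⟨k, h, hk⟩ := ih
    obtain ⟨m, hm⟩ := Int.eq_ofNat_of_zero_le (sub_nonneg.2 (e.fl_ge (s := t) (by omega)))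
    refine ⟨k + m, ?_, ?_⟩
    · rw [e.g_step, h, ← Int.cast_sub, hm]; push_cast; ring
    · rcases lt_trichotomy (t : ℤ) p with h1 | h1 | h1
      · have := e.fl_eq (s := t) (by omega) h1; omega
      · have := e.fl_p; rw [← h1] at this; rw [← h1] at hm ⊢; omega
      · omega
  | pred t ih =>
    obtain ⟨k, h, hk⟩ := ih
    obtain ⟨m, hm⟩ :=
      Int.eq_ofNat_of_zero_le (sub_nonneg.2 (e.fl_le (s := -(t : ℤ) - 1) (by omega)))
    have st := e.g_step (-(t : ℤ) - 1)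
    rw [sub_add_cancel, h] at st
    refine ⟨k + m, ?_, ?_⟩
    · have : (((-(t : ℤ) - 1) * q' / p' : ℤ) : ℚ) - (((-(t : ℤ) - 1) * q / p : ℤ) : ℚ) = m := by
        rw [← Int.cast_sub, hm]; simp
      push_cast at this st ⊢; linarith
    · rcases lt_trichotomy (-(p' : ℤ)) (-(t : ℤ) - 1) with h1 | h1 | h1
      · have := e.fl_eq h1 (by omega); omega
      · have := e.fl_p'; rw [← h1] at hm; omega
      · omega

/-- GAP: the gap is an even natural number, zero iff `|κ| < p + p'` -/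
theorem gap (j j' : ℤ) : ∃ k : ℕ, G p q p' q' j j' = 2 * k ∧
    (k = 0 ↔ |kap p q p' q' j j'| < p + p') := by
  obtain ⟨k, h, hk⟩ := e.g_main (j * p' - j' * p)
  have D := e.detZ
  refine ⟨k, ?_, ?_⟩
  · rw [← h, ← e.G_per ((j * p' - j' * p) * q) _ (q * j' - q' * j)]
    congr 1
    · linear_combination (-j) * D
    · linear_combination (-j') * D
  · rw [hk, abs_lt, show kap p q p' q' j j' = -2 * (j * p' - j' * p) + p - p' + 1 by
      simp only [kap]; linear_combination D]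
    omega

theorem gap_nonneg (j j' : ℤ) : d p q j + deg p p' (kap p q p' q' j j') ≤ d p' q' j' := by
  obtain ⟨k, h, -⟩ := e.gap j j'
  have : (0 : ℚ) ≤ k := by positivity
  rw [G] at h; linarith

theorem sharp_iff (j j' : ℤ) : d p q j + deg p p' (kap p q p' q' j j') = d p' q' j' ↔
    |kap p q p' q' j j'| < p + p' := by
  obtain ⟨k, h, hk⟩ := e.gap j j'
  rw [← hk, G] at *
  constructor
  · intro h'; have : (k : ℚ) = 0 := by linarith
    exact_mod_cast this
  · rintro rfl; simp at h; linarith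

theorem kap_eq (j j' : ℤ) : kap p q p' q' j j' = -2 * (j * p' - j' * p) + p - p' + 1 := by
  simp only [kap]; linear_combination e.detZ

theorem small_tgt (j' : ℤ) : ∃ j, |kap p q p' q' j j'| < p + p' := by
  have hp : (0 : ℤ) < p := by have := e.hp; omega
  have hp' : (0 : ℤ) < p' := by have := e.hp'; omega
  refine ⟨j' * p / p', ?_⟩
  have h0 := Int.emod_nonneg (j' * p) hp'.ne'
  have h1 := Int.emod_lt_of_pos (j' * p) hp'
  have h2 := Int.emod_add_mul_ediv (j' * p) p'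
  rw [abs_lt, e.kap_eq, mul_comm (j' * p / p')]
  omega

theorem small_src (j : ℤ) : ∃ j', |kap p q p' q' j j'| < p + p' := by
  have hp : (0 : ℤ) < p := by have := e.hp; omega
  have hp' : (0 : ℤ) < p' := by have := e.hp'; omega
  refine ⟨j * p' / p, ?_⟩
  have h0 := Int.emod_nonneg (j * p') hp.ne'
  have h1 := Int.emod_lt_of_pos (j * p') hp
  have h2 := Int.emod_add_mul_ediv (j * p') p
  rw [abs_lt, e.kap_eq, mul_comm (j * p' / p)]
  omega

/-- MATCH, target side -/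
theorem match_tgt (j' : ℤ) : ∃ j, d p q j + deg p p' (kap p q p' q' j j') = d p' q' j' :=
  (e.small_tgt j').imp fun _ h => (e.sharp_iff _ _).2 h

/-- MATCH, source side -/
theorem match_src (j : ℤ) : ∃ j', d p q j + deg p p' (kap p q p' q' j j') = d p' q' j' :=
  (e.small_src j).imp fun _ h => (e.sharp_iff _ _).2 h

/-- `λ = q n' - q' n` -/
theorem kap_swap (j j' : ℤ) :
    kap q' p' q p j' j = 1 - (q * (2 * j' + 1 - q') - q' * (2 * j + 1 - q)) := by
  simp only [kap]; linear_combination e.detZ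

/-- the `Psi` gap: a natural number, zero iff the pair is peg free (`|q n' - q' n| ≤ q + q' - 2`) -/
theorem Psi_gap (h : 0 < q') (j j' : ℤ) : ∃ k : ℕ,
    Psi p' q' j' - Psi p q j - deg p p' (kap p q p' q' j j') = k ∧
    (k = 0 ↔ |(q : ℤ) * (2 * j' + 1 - q') - q' * (2 * j + 1 - q)| + 1 < q + q') := by
  obtain ⟨a, ha, ha'⟩ := (e.swap h).gap j' j
  obtain ⟨b, hb, hb'⟩ := (e.swap h).gap (j' + p') (j + p)
  rw [← e.Phi_gap h] at ha hb
  have k : kap p q p' q' (j + p) (j' + p') = kap p q p' q' j j' := by simp only [kap]; ring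
  rw [k] at hb
  refine ⟨a + b, by rw [Psi, Psi]; push_cast; linarith, ?_⟩
  rw [e.kap_swap] at ha' hb'
  rw [show (q : ℤ) * (2 * (j' + p') + 1 - q') - q' * (2 * (j + p) + 1 - q) =
    q * (2 * j' + 1 - q') - q' * (2 * j + 1 - q) + 2 by linear_combination 2 * e.detZ] at hb'
  generalize (q : ℤ) * (2 * j' + 1 - q') - q' * (2 * j + 1 - q) = l at *
  rw [Nat.add_eq_zero_iff, ha', hb', abs_lt, abs_lt, ← lt_sub_iff_add_lt, abs_lt]
  omega

/-- a peg free pair lies in one gap -/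
theorem same_gap (h : 0 < q') {j j' : ℤ}
    (H : |(q : ℤ) * (2 * j' + 1 - q') - q' * (2 * j + 1 - q)| + 1 < q + q') : j / q = j' / q' := by
  have hq : (0 : ℤ) < q := by have := e.hq; omega
  have hq' : (0 : ℤ) < q' := by omega
  have h0 := Int.emod_nonneg j hq.ne'
  have h1 := Int.emod_lt_of_pos j hq
  have h2 := Int.emod_add_mul_ediv j q
  have h3 := Int.emod_nonneg j' hq'.ne'
  have h4 := Int.emod_lt_of_pos j' hq'
  have h5 := Int.emod_add_mul_ediv j' q'
  rw [← lt_sub_iff_add_lt, abs_lt] at H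
  generalize j / q = a at *
  generalize j' / q' = a' at *
  generalize j % q = c at *
  generalize j' % q' = c' at *
  subst h2 h5
  obtain ⟨H1, H2⟩ := H
  rcases lt_trichotomy a a' with hh | hh | hh
  · have : (q : ℤ) * q' ≤ q * q' * (a' - a) := le_mul_of_one_le_right (by positivity) (by omega)
    nlinarith
  · exact hh
  · have : (q : ℤ) * q' ≤ q * q' * (a - a') := le_mul_of_one_le_right (by positivity) (by omega)
    nlinarith

end Edge

end Crest.Agent.X212.Lens17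
end

-- ▼ part X212/Frb23/Ari
section

/-! The degree function of the diagonal classes, on both sides. -/

namespace Frb23

open Crest.Agent.X212

theorem d_eq (q : ℕ) : ∀ p : ℕ, 0 < p → Nat.Coprime p q → ∀ j, Lens17.d p q j = Lens8.dL p q j := by
  induction q using Nat.strong_induction_on with
  | _ q ih =>
    intro p hp hc j
    rcases q.eq_zero_or_pos with rfl | hq
    · obtain rfl : p = 1 := by simpa using hc
      simp
    have hc' : Nat.Coprime q (p % q) := by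
      rw [Nat.Coprime, Nat.gcd_comm, ← Nat.gcd_rec]; exact hc.symm
    have h0 : (0 : ℤ) ≤ j % p := Int.emod_nonneg _ (by omega)
    have h1 : j % p < p := Int.emod_lt_of_pos _ (by omega)
    have := Lens8.dL_rec hp hq hc h0 (by omega)
    rw [Lens17.d_pos p hq, ih _ (Nat.mod_lt _ hq) q hq hc', Lens8.dL_mod, Lens17.Q,
      ← Lens8.dL_emod p q j]
    linarith

theorem Psi_shear {p q : ℕ} (hp : 0 < p) (hq : 0 < q) (hc : Nat.Coprime p q) (j : ℤ) :
    Lens17.Psi (p + q) q j - Lens17.Psi p q j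
      = (1 - (2 * (j : ℚ) + 1 - q) ^ 2 / (p * (p + q))) / 4 := by
  have h1 : (p : ℚ) ≠ 0 := by positivity
  have h2 : (q : ℚ) ≠ 0 := by positivity
  have h3 : (p : ℚ) + q ≠ 0 := by positivity
  rw [Lens17.Psi_eq hp hq hc, Lens17.Psi_eq (by omega) hq (by simpa using hc), Lens17.Phi,
    Lens17.Phi, Lens17.d_add hq hc.symm, Lens17.Q, Lens17.Q]
  push_cast; field_simp; ring

theorem d_anti {a b : ℕ} (ha : 0 < a) (hb : 0 < b) (hc : Nat.Coprime a b) (j : ℤ) :
    Lens17.d (a + b) b j + Lens17.d (a + b) a (j + a) = 0 := by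
  have hq : (0 : ℤ) < ((a + b : ℕ) : ℤ) := by omega
  have h0 := Int.emod_nonneg j hq.ne'
  have h1 := Int.emod_lt_of_pos j hq
  rw [← Lens17.d_emod, Lens17.d_congr (a + b) a (j := j + a) (j' := j % ((a + b : ℕ) : ℤ) + a)
    (by simp)]
  generalize j % ((a + b : ℕ) : ℤ) = i at *
  have c1 : Nat.Coprime (a + b) b := by simpa using hc
  have c2 : Nat.Coprime (a + b) a := by simpa using hc.symm
  have e1 := Lens17.Phi_eq_d (p := a + b) (by omega) hb c1 h0 (by omega)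
  have e2 := Lens17.Phi_eq_d (p := a + b) (j := i + a) (by omega) ha c2 (by omega) (by omega)
  have e3 := Lens17.Phi_eq_d ha hb hc h0 (by omega)
  have e4 : Lens17.d a (a + b) (i + a) = Lens17.d a b i := by
    rw [add_comm a b, Lens17.d_add ha hc, Lens17.d_add_self]
  rw [← e1, ← e2, Lens17.Phi, Lens17.Phi, Lens17.d_add hb hc.symm, e4, ← e3, Lens17.Phi,
    Lens17.Q, Lens17.Q, Lens17.Q]
  have h1 : (a : ℚ) ≠ 0 := by positivity
  have h2 : (b : ℚ) ≠ 0 := by positivity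
  have h3 : (a : ℚ) + b ≠ 0 := by positivity
  push_cast; field_simp; ring

theorem Psi_cross {a b : ℕ} (ha : 0 < a) (hb : 0 < b) (hc : Nat.Coprime a b) (j : ℤ) :
    Lens17.Psi b (a + b) j - (1 - Lens17.Psi a (a + b) j)
      = ((2 * (j : ℚ) + 1 - (a + b)) ^ 2 / (a * b) - 5) / 4 := by
  have c1 : Nat.Coprime (a + b) b := by simpa using hc
  have c2 : Nat.Coprime (a + b) a := by simpa using hc.symm
  have e1 := d_anti ha hb hc j
  have e2 := Lens17.shift (p := a + b) (by omega) c2 j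
  rw [Lens17.cast_emod] at e2
  have e3 : Lens17.d (a + b) b j = -((2 * (j - ((a + b : ℕ) : ℚ) * ((j / ((a + b : ℕ) : ℤ) : ℤ) : ℚ))
      + 1 - ((a + b : ℕ) : ℚ)) / ((a + b : ℕ) : ℚ)) - Lens17.d (a + b) a j := by linarith
  rw [Lens17.Psi_eq hb (by omega) c1.symm, Lens17.Psi_eq ha (by omega) c2.symm, Lens17.Phi,
    Lens17.Phi, e3, Lens17.Q, Lens17.Q]
  generalize ((j / ((a + b : ℕ) : ℤ) : ℤ) : ℚ) = t
  have h1 : (a : ℚ) ≠ 0 := by positivity
  have h2 : (b : ℚ) ≠ 0 := by positivity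
  have h3 : (a : ℚ) + b ≠ 0 := by positivity
  push_cast; field_simp; ring

/-- the degree function -/
def Ps (p : ℤ) (q : ℕ) (j : ℤ) : ℚ :=
  if 0 < p then Lens17.Psi p.natAbs q j else 1 - Lens17.Psi p.natAbs q j

theorem cop_nat {p : ℤ} {q : ℕ} (h : IsCoprime p q) : Nat.Coprime p.natAbs q := by
  have := Int.isCoprime_iff_gcd_eq_one.1 h
  simpa [Int.gcd] using this

theorem Ps_neg {p : ℤ} {q : ℕ} (ho : Ok p q) (h : 0 < p ∨ p + q < 0) (j : ℤ) :
    Ps (p + q) q j - Ps p q j = (1 - ((2 * j + 1 - q : ℤ) : ℚ) ^ 2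
      / ((p.natAbs : ℚ) * ((p + q).natAbs : ℚ))) / 4 := by
  rcases h with h | h
  · rw [Ps, Ps, if_pos h, if_pos (by omega), show (p + q).natAbs = p.natAbs + q by omega,
      Psi_shear (by omega) ho.1 (cop_nat ho.2.1)]
    push_cast; ring
  · have := Psi_shear (p := (p + q).natAbs) (by omega) ho.1 (cop_nat ho.add.2.1) j
    rw [Ps, Ps, if_neg (by omega), if_neg (by omega), show p.natAbs = (p + q).natAbs + q by omega]
    push_cast at this ⊢
    rw [mul_comm (_ + (q : ℚ))]; linarith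

theorem Ps_pos {p : ℤ} {q : ℕ} (ho : Ok p q) (h : p < 0) (h' : 0 < p + q) (j : ℤ) :
    Ps (p + q) q j - Ps p q j = (((2 * j + 1 - q : ℤ) : ℚ) ^ 2
      / ((p.natAbs : ℚ) * ((p + q).natAbs : ℚ)) - 5) / 4 := by
  have hc := cop_nat ho.2.1
  rw [Ps, Ps, if_pos h', if_neg (by omega)]
  have e : q = p.natAbs + (p + q).natAbs := by omega
  have ha : 0 < p.natAbs := by omega
  have hb : 0 < (p + q).natAbs := by omega
  generalize (p + q).natAbs = b at *
  generalize p.natAbs = a at *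
  subst e
  rw [Psi_cross ha hb (by simpa using hc)]
  push_cast; ring

theorem Ps_edge {p p' : ℤ} {q q' : ℕ} (hp : 0 < p) (hq : 0 < q) (hq' : 0 < q')
    (hd : p' * q = p * q' + 1) {j j' : ℤ} (h : PF q q' j j') :
    0 < p' ∧ Ps p' q' j' - Ps p q j
      = (1 - (((2 * j + 1 - q) * p' - (2 * j' + 1 - q') * p : ℤ) : ℚ) ^ 2
        / ((p.natAbs : ℚ) * (p'.natAbs : ℚ))) / 4 := by
  have hp' : 0 < p' := by
    by_contra hc
    have c1 : p' * q ≤ 0 := mul_nonpos_of_nonpos_of_nonneg (by omega) (by omega)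
    have c2 : 0 ≤ p * q' := by positivity
    omega
  refine ⟨hp', ?_⟩
  lift p to ℕ using hp.le
  lift p' to ℕ using hp'.le
  have e : Lens17.Edge p q p' q' := ⟨by omega, by rw [mul_comm]; exact_mod_cast hd⟩
  obtain ⟨k, h1, h2⟩ := e.Psi_gap hq' j j'
  obtain rfl : k = 0 := h2.2 (by
    rw [← lt_sub_iff_add_lt, abs_lt]
    obtain ⟨a, b⟩ := h
    constructor <;> linarith)
  rw [Ps, Ps, if_pos hp, if_pos hp', Int.natAbs_natCast, Int.natAbs_natCast]
  rw [Lens17.deg, Lens17.kap] at h1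
  push_cast at h1 ⊢
  rw [← neg_sq]
  convert sub_eq_zero.1 h1 using 5
  ring

end Frb23
end

-- ▼ part X212/Frb23/Kill
section

/-! The leaf KILL of layer S. -/

noncomputable section

namespace Frb23

open Crest.Agent.X212 Bor5 Module

theorem rd_ind (X : Ob) : iSupIndep fun i : ZMod X.P × ℚ => X.rd i.1 i.2 := by
  intro i
  let C : Submodule K X.H := ⨆ (j : ZMod X.P × ℚ) (_ : j ≠ i), X.gr j.1 j.2
  have h1 : (⨆ (j : ZMod X.P × ℚ) (_ : j ≠ i), X.rd j.1 j.2) = C.map X.T.mkQ := by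
    simp only [C, Ob.rd, Submodule.map_iSup]
  have h2 : X.T ≤ (X.T ⊓ X.gr i.1 i.2) ⊔ C := by
    refine Submodule.span_le.2 ?_
    rintro _ ⟨s, x, rfl⟩
    by_cases e : (s, x) = i
    · subst e
      exact Submodule.mem_sup_left ⟨Submodule.subset_span ⟨s, x, rfl⟩, X.e_mem s x⟩
    · exact Submodule.mem_sup_right (Submodule.mem_iSup_of_mem (s, x)
        (Submodule.mem_iSup_of_mem e (X.e_mem s x)))
  rw [h1, Submodule.disjoint_def]
  rintro _ ⟨a, ha, rfl⟩ ⟨b, hb, e⟩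
  have h3 : a - b ∈ X.T := (Submodule.Quotient.eq _).1 e.symm
  obtain ⟨t, ht, c, hc, e'⟩ := Submodule.mem_sup.1 (h2 h3)
  have h4 : a - t = 0 := Submodule.disjoint_def.1 (X.ind i) _ (sub_mem ha ht.2) (by
    rw [show a - t = b + c by rw [eq_add_of_sub_eq e'.symm]; abel]
    exact add_mem hb hc)
  rw [sub_eq_zero.1 h4]
  exact (Submodule.Quotient.mk_eq_zero _).2 ht.1

/-- the reduced part as a labelled graded space -/
def lg (X : Ob) : LG K X.Red X.P where
  W i := X.rd i.1 i.2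
  ind := rd_ind X
  top := by
    simp only [Ob.rd]
    rw [← Submodule.map_iSup, X.top, Submodule.map_top, Submodule.range_mkQ]

open Classical in
/-- everything in one piece -/
def triv (V : Type) [AddCommGroup V] [Module K V] (n : ℕ) : LG K V n where
  W i := if i = 0 then ⊤ else ⊥
  ind := fun i => by
    by_cases h : i = 0
    · refine disjoint_bot_right.mono_right (iSup₂_le fun j hj => ?_)
      exact (if_neg (h ▸ hj)).le
    · simp only [if_neg h]; exact disjoint_bot_left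
  top := top_le_iff.1 (le_iSup_of_le 0 (by simp))

/-- the same with a prescribed order -/
def lgn (X : Ob) (n : ℕ) : LG K X.Red n := if h : X.P = n then h ▸ lg X else triv _ n

theorem lgn_self (X : Ob) : lgn X X.P = lg X := dif_pos rfl

variable {A B C : Ob}

open Classical in
/-- the induced map -/
def ind (g : A.H →ₗ[K] B.H) : A.Red →ₗ[K] B.Red :=
  if h : A.T ≤ B.T.comap g then A.T.mapQ B.T g h else 0

theorem ind_mk {g : A.H →ₗ[K] B.H} (h : A.T ≤ B.T.comap g) (y : A.H) :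
    ind g (A.T.mkQ y) = B.T.mkQ (g y) := by
  rw [ind, dif_pos h]; rfl

theorem ind_comp {f : A.H →ₗ[K] B.H} {g : B.H →ₗ[K] C.H} (h : A.T ≤ B.T.comap f)
    (h' : B.T ≤ C.T.comap g) : ind g ∘ₗ ind f = ind (g ∘ₗ f) := by
  refine LinearMap.ext fun x => ?_
  obtain ⟨y, rfl⟩ := A.T.mkQ_surjective x
  rw [LinearMap.comp_apply, ind_mk h, ind_mk h', ind_mk (g := g ∘ₗ f) fun y hy => h' (h hy)]
  rfl

theorem ind_zero : ind (0 : A.H →ₗ[K] B.H) = 0 := by
  refine LinearMap.ext fun x => ?_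
  obtain ⟨y, rfl⟩ := A.T.mkQ_surjective x
  rw [ind_mk fun y _ => by simp]; simp

/-- towers go to towers -/
def Tw (f : Fam A B) : Prop := ∀ κ, A.T ≤ B.T.comap (f.F κ)

theorem tw_neg (hF : FroStmt) {f : Fam A B} (h : f.Neg) : Tw f := by
  intro κ
  refine Submodule.span_le.2 ?_
  rintro _ ⟨s, x, rfl⟩
  change f.F κ _ ∈ B.T
  by_cases h1 : Fam.Ch A B κ
  · by_cases h2 : s = f.s κ
    · rw [h2, ((hF A B f).1 h κ h1).2]
      exact Submodule.subset_span ⟨_, _, rfl⟩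
    · rw [f.off κ s x _ h2 (A.e_mem s x)]; exact zero_mem _
  · rw [h.par κ h1]; exact zero_mem _

theorem tw_pos (hF : FroStmt) {f : Fam A B} (h : f.Pos) : Tw f := fun κ y hy => by
  change f.F κ _ ∈ B.T
  rw [(hF A B f).2 h κ y hy]; exact zero_mem _

theorem Tw.hom {f : Fam A B} (h : Tw f) {n n' : ℕ} (hn : A.P = n) (hn' : B.P = n') (κ j j' : ℤ)
    (hj : f.s κ = j ∧ f.t κ = j') {δ : ℚ} (hd : δ = f.dg κ) :
    LG.Hom (lgn A n) (lgn B n') (ind (f.F κ)) j j' δ := by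
  subst hn hn' hd
  rw [lgn_self, lgn_self, ← hj.1, ← hj.2]
  constructor
  · rintro d _ ⟨y, hy, rfl⟩
    rw [ind_mk (h κ)]
    exact ⟨_, f.map κ d y hy, rfl⟩
  · rintro t d ht _ ⟨y, hy, rfl⟩
    rw [ind_mk (h κ), f.off κ t d y ht hy, map_zero]

theorem Tw.fin [FiniteDimensional K A.Red] {f : Fam A B} (h : Tw f) :
    (Function.support fun κ => ind (f.F κ)).Finite := by
  let b := Module.finBasis K A.Red
  choose y hy using fun i => A.T.mkQ_surjective (b i)
  refine (Set.finite_iUnion fun i => f.fin (y i)).subset fun κ hκ => ?_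
  by_contra hc
  refine hκ (b.ext fun i => ?_)
  have : f.F κ (y i) = 0 := by_contra fun e => hc (Set.mem_iUnion.2 ⟨i, e⟩)
  rw [← hy, ind_mk (h κ), this]; simp

theorem Tw.bij [FiniteDimensional K A.Red] {f : Fam A B} (h : Tw f) (hb : Fam.RBij f.tot)
    (k : ℤ → ℤ) (hk : Function.Injective k) (h0 : ∀ κ, κ ∉ Set.range k → f.F κ = 0) :
    Function.Bijective (∑ᶠ j, ind (f.F (k j)) : A.Red →ₗ[K] B.Red) := by
  classical
  obtain ⟨φ, h1, h2⟩ := hb
  have e1 : ∑ᶠ j, ind (f.F (k j)) = ∑ᶠ κ, ind (f.F κ) := by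
    rw [← finsum_mem_range (f := fun κ => ind (f.F κ)) hk, ← finsum_mem_univ (fun κ => ind (f.F κ))]
    refine finsum_mem_inter_support_eq' _ _ _ fun κ hκ => ⟨fun _ => trivial, fun _ => ?_⟩
    by_contra hc
    exact hκ (by simp only; rw [h0 κ hc, ind_zero])
  have e2 : ∑ᶠ κ, ind (f.F κ) = φ := by
    refine LinearMap.ext fun x => ?_
    obtain ⟨y, rfl⟩ := A.T.mkQ_surjective x
    rw [h1 y, finsum_eq_sum_of_support_subset (s := h.fin.toFinset ∪ (f.fin y).toFinset) _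
      (by simp), LinearMap.sum_apply]
    change _ = B.T.mkQ (∑ᶠ κ, f.F κ y)
    rw [finsum_eq_sum_of_support_subset (s := h.fin.toFinset ∪ (f.fin y).toFinset) _
      (by simp), map_sum]
    exact Finset.sum_congr rfl fun κ _ => ind_mk (h κ) y
  rw [e1, e2]; exact h2

theorem Ok.sl {p : ℤ} {q : ℕ} (h : Ok p q) : Sl p q := ⟨h.ne, by omega, h.2.1⟩

theorem ed_of {p p' : ℤ} {q q' : ℕ} (hp : 0 < p) (hq : 0 < q) (hd : p' * q = p * q' + 1) :
    Ed p q p' q' := by
  refine ⟨mul_pos hp ?_, by omega, by omega, by linarith⟩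
  by_contra hc
  have c1 : p' * q ≤ 0 := mul_nonpos_of_nonpos_of_nonneg (by omega) (by omega)
  have c2 : 0 ≤ p * q' := by positivity
  omega

theorem sl_of {p q p' q' : ℤ} (h : Ed p q p' q') : Sl p q ∧ Sl p' q' := by
  obtain ⟨h1, h2, h3, h4⟩ := h
  exact ⟨⟨by rintro rfl; simp at h1, h2, ⟨-q', p', by linarith⟩⟩,
    ⟨by rintro rfl; simp at h1, h3, ⟨q, -p, by linarith⟩⟩⟩

theorem shear (S : Sys) {p : ℤ} {q : ℕ} (ho : Ok p q) :
    (∀ j : ℤ, (S.F p q (p + q) q).s (2 * j + 1 - q) = j ∧ (S.F p q (p + q) q).t (2 * j + 1 - q) = j) ∧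
    ((0 < p ∨ p + q < 0) ∧ (S.F p q (p + q) q).Neg ∨
      (p < 0 ∧ 0 < p + q) ∧ (S.F p q (p + q) q).Pos) := by
  rcases lt_or_ge q 2 with hq | hq
  · obtain rfl : q = 1 := by have := ho.1; omega
    have hp : 0 < p := ho.2.2.resolve_right (by omega)
    have e : Ed p (1 : ℕ) (p + (1 : ℕ)) (1 : ℕ) := ed_of hp one_pos (by push_cast; ring)
    refine ⟨fun j => ?_, Or.inl ⟨Or.inl hp, S.neg _ _ _ _ e⟩⟩
    have := S.lab _ _ _ _ e j j
    rwa [show kap p (1 : ℕ) (p + (1 : ℕ)) (1 : ℕ) j j = 2 * j + 1 - (1 : ℕ) by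
      rw [kap]; push_cast; ring] at this
  · refine ⟨S.labT p q _ ho.sl (by omega) rfl, ?_⟩
    obtain ⟨w⟩ := S.shr p q _ ho.sl (by omega) rfl
    have h1 := ho.ne
    have h2 := ho.add.ne
    by_cases h3 : 0 < p
    · exact Or.inl ⟨Or.inl h3, (w.pp h3).nf⟩
    by_cases h4 : p + q < 0
    · exact Or.inl ⟨Or.inr h4, (w.nn h4).ng⟩
    · exact Or.inr ⟨⟨by omega, by omega⟩, (w.np (by omega) (by omega)).ph⟩

theorem par {p q κ : ℤ} (h : IsCoprime p q) (hκ : Even (κ + (p.natAbs : ℤ) * ((p + q).natAbs : ℤ))) :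
    ∃ j, 2 * j + 1 - q = κ := by
  have h1 : Even (κ + p * (p + q)) := by
    rw [Int.even_add, Int.even_mul, Int.even_coe_nat, Int.even_coe_nat, Int.natAbs_even,
      Int.natAbs_even, ← Int.even_mul, ← Int.even_add] at hκ
    exact hκ
  have h2 : ¬ (Even p ∧ Even q) := fun ⟨a, b⟩ => by
    have := h.isUnit_of_dvd' a.two_dvd b.two_dvd
    rcases Int.isUnit_iff.1 this with e | e <;> omega
  have h3 : Even (κ + q - 1) := by
    simp only [parity_simps] at h1 ⊢
    tauto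
  obtain ⟨j, hj⟩ := h3
  exact ⟨j, by omega⟩

theorem rd_of (hF : FroStmt) (hV : ValStmt) (S : Sys) {R : ℕ} (hR : S.Good R) :
    Rd (H := fun p q => (S.Y p q).Red) (fun p q => lgn (S.Y p q) p.natAbs)
      (fun p q j => ind ((S.F p q (p + q) q).F (2 * j + 1 - q)))
      (fun p q p' q' j j' => ind ((S.F p q p' q').F (kap p q p' q' j j'))) Ps R := by
  have fd : ∀ X : Ob, FiniteDimensional K X.Red := fun X => (hV X X.d).1
  have tw : ∀ p q, Ok p q → Tw (S.F p q (p + q) q) := fun p q ho =>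
    (shear S ho).2.elim (fun h => tw_neg hF h.2) fun h => tw_pos hF h.2
  have inj : ∀ q : ℕ, Function.Injective fun j : ℤ => 2 * j + 1 - q := fun q a b e => by
    simp only at e; omega
  refine ⟨rfl, fun p q ho j => ?_, fun p q ho => ?_, fun p q ho => ?_, fun p q ho a d => ?_,
    fun n hn j => ⟨1, one_ne_zero, ?_⟩, fun p q p' q' hp hq hq' hd j j' hpf => ?_,
    fun p q p' q' hp hq hq' hd j j' m hm => ⟨1, one_ne_zero, ?_⟩, fun p q hp hq hc => ?_⟩
  · refine (tw p q ho).hom (S.hP _ _ ho.sl) (S.hP _ _ ho.add.sl) _ j j ((shear S ho).1 j) ?_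
    rcases (shear S ho).2 with h | h
    · rw [h.2.dg, S.hP _ _ ho.sl, S.hP _ _ ho.add.sl, Ps_neg ho h.1]
    · rw [h.2.dg, S.hP _ _ ho.sl, S.hP _ _ ho.add.sl, Ps_pos ho h.1.1 h.1.2]
  · exact (tw p q ho).fin.preimage (inj q).injOn
  · refine (tw p q ho).bij (hR.bij p q _ ho.sl (by have := ho.1; omega) rfl ho.add.ne) _ (inj q)
      fun κ hκ => ?_
    have hl : (S.F p q (p + q) q).Lat := (shear S ho).2.elim (fun h => h.2.toLat) fun h => h.2.toLat
    refine hl.par κ fun hc => hκ (par ho.2.1 ?_)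
    rwa [Fam.Ch, S.hP _ _ ho.sl, S.hP _ _ ho.add.sl] at hc
  · rw [ind_comp (tw p q ho _) (tw _ q ho.add _), ind_comp (tw p q ho _) (tw _ q ho.add _),
      S.swap p q _ _ ho.sl (by have := ho.1; omega) rfl rfl ho.add.ne ho.add.add.ne]
  · rw [one_smul, show kap n (1 : ℕ) (n + (1 : ℕ)) (1 : ℕ) j j = 2 * j + 1 - (1 : ℕ) by
      rw [kap]; push_cast; ring]
  · have e := ed_of hp hq hd
    refine (tw_neg hF (S.neg _ _ _ _ e)).hom (S.hP _ _ (sl_of e).1) (S.hP _ _ (sl_of e).2) _ j j'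
      (S.lab _ _ _ _ e j j') ?_
    rw [(S.neg _ _ _ _ e).dg, S.hP _ _ (sl_of e).1, S.hP _ _ (sl_of e).2,
      (Ps_edge hp hq hq' hd hpf).2, kap]
  · have e := ed_of hp hq hd
    have t := S.tri p q p' q' (p + p') ((q + q' : ℕ) : ℤ) e rfl (by push_cast; rfl)
    obtain ⟨c, hc, e1, e2⟩ : ∃ c : ℤ, (c = 1 ∨ c = -1) ∧
        kap p q (p + p') ((q + q' : ℕ) : ℤ) j m = kap p q p' q' j j' - c * p ∧
        kap (p + p') ((q + q' : ℕ) : ℤ) p' q' m j' = kap p q p' q' j j' + c * p' := by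
      rcases hm with rfl | rfl
      · exact ⟨-1, Or.inr rfl, by simp only [kap]; push_cast; ring, by simp only [kap]; push_cast; ring⟩
      · exact ⟨1, Or.inl rfl, by simp only [kap]; push_cast; ring, by simp only [kap]; push_cast; ring⟩
    rw [one_smul, ind_comp (tw_neg hF t.nf _) (tw_neg hF t.ng _), e1, e2,
      S.bu1 p q p' q' _ _ e rfl (by push_cast; rfl) _ c hc]
  · exact_mod_cast hR.dim p q ⟨hp.ne', by omega, hc⟩

theorem iso_of (hI : IsoStmt) {X Y : Ob} (i : Iso X Y) {n n' : ℕ} (hn : X.P = n) (hn' : Y.P = n') :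
    ∃ φ : ZMod n ≃ ZMod n', (∀ s d, (lgn X n).c s d = (lgn Y n').c (φ s) d) ∧
      ∃ u : ZMod n' → ℚ, (∀ j : ℤ, u (φ j) = X.d j) ∧ ∀ j : ℤ, u j = Y.d j := by
  subst hn hn'
  rw [lgn_self, lgn_self]
  exact ⟨i.φ, fun s d => ((hI X Y i).2.2 s d).symm, Y.d, fun j => (hI X Y i).1 j, fun _ => rfl⟩

theorem D_pos {p q : ℕ} (hp : 0 < p) (hc : Nat.Coprime p q) (j : ℤ) :
    Bor5.D p q j = Lens17.d p q j ∧ Bor5.D (-p) q j = -Lens17.d p q j := by
  have e : ((q : ℤ) % p).toNat = q % p := by rw [← Int.natCast_mod, Int.toNat_natCast]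
  rw [Bor5.D, Bor5.D, if_pos (by omega), if_neg (by omega), neg_neg, Int.emod_neg, e,
    Int.toNat_natCast, Lens8.dL_mod, d_eq q p hp hc]
  exact ⟨rfl, rfl⟩

/-- KILL -/
theorem kill (hF : FroStmt) (hV : ValStmt) (hI : IsoStmt) : KillStmt := by
  intro S R hR p q hs hp hq i h0
  have fd : ∀ X : Ob, FiniteDimensional K X.Red := fun X => (hV X X.d).1
  lift p to ℕ using by omega
  lift q to ℕ using by omega
  have ho : Ok p q := ⟨by omega, hs.2.2, Or.inr (by omega)⟩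
  have ho' : Ok (-p) q := ⟨by omega, hs.2.2.neg_left, Or.inr (by omega)⟩
  have hc : Nat.Coprime p q := by simpa using cop_nat hs.2.2
  have hD := D_pos (by omega) hc
  obtain ⟨g, r, h1, h2⟩ := (rd_of hF hV S hR).two_sums
  obtain ⟨φ, h3, u, h4, h5⟩ := iso_of hI i (S.hP _ _ hs) (S.hP _ _ hs.neg)
  obtain ⟨hA, hC⟩ := h2 p (-p) q ho ho' φ h3
  have d1 : ∀ j : ℤ, (S.Y p q).d j = Lens17.d p q j := fun j => by
    rw [hR.del _ _ hs, Sys.D, Dc, (hD _).1, ZMod.val_intCast, S.hP _ _ hs, Int.natAbs_natCast,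
      Lens17.d_emod]
  have d2 : ∀ j : ℤ, (S.Y (-p) q).d j = -Lens17.d p q j := fun j => by
    rw [hR.del _ _ hs.neg, Sys.D, Dc, (hD _).2, ZMod.val_intCast, S.hP _ _ hs.neg, Int.natAbs_neg,
      Int.natAbs_natCast, Lens17.d_emod]
  have key := Sw87.kill17 (p := p) (q := q) (by omega) (by omega) hc (by omega)
    (by rw [← h0, Sd, Int.natAbs_natCast]; exact Finset.sum_congr rfl fun j _ => (hD j).1.symm)
    (Finset.Icc (-(g : ℤ)) g) r
    (by
      rw [← hA]
      refine Finset.sum_congr rfl fun a _ => congrArg _ (Finset.sum_congr rfl fun b _ => ?_)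
      rw [Ps, Ps, if_pos (by omega), if_neg (by omega), Int.natAbs_neg, Int.natAbs_natCast]
      ring)
    (by
      have := hC u
      simp only [h4, h5, d1, d2, sub_neg_eq_add, ← two_mul, ← Finset.mul_sum, mul_left_comm _ (2 : ℚ)]
        at this
      simpa using this)
  rw [← h1]
  exact Finset.sum_eq_zero key

end Frb23
end
end

-- ▼ part X212/Bor5/Top

/-!
# Row 212, layer S (helper5): the target of the seam, and level one assembled
-/

set_option autoImplicit false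

noncomputable section

namespace Crest.Agent.X212.Bor5

open Crest.Agent.X212.Ext52 Crest.Agent.X212.Nrm38

/-- SYS0: the target of the seam -/
def Sys0Stmt : Prop := ∀ k : KD, ¬k.thick.IsUnknot → ∃ S : Sys0,
  (∃ X, Nonempty (NVD X) ∧ Nonempty (Iso X (S.Y 1 4))) ∧
  (∀ p q q', Sl p q → Sl p q' → 0 < p → Cos k p q q' → Nonempty (Iso (S.Y p q) (S.Y p q'))) ∧
  ∀ p q s, Sl p q → Sl p s → 0 < p → 0 < s → Cos k p q (-s) → Nonempty (Iso (S.Y p q) (S.Y (-p) s))

theorem sys_of (h : Sys0Stmt) : SysStmt := fun k hk =>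
  let ⟨S, ⟨_, ⟨w⟩, ⟨i⟩⟩, h1, h2⟩ := h k hk
  ⟨S.sys, S.sys.nv_of w i, h1, h2⟩

theorem out (hB : BndStmt) (hP : PosStmt) (hPr : PropStmt) (hA : AllStmt) : OutStmt :=
  out_of val iso Lens8.sumStmt hB hP hPr hA (Frb23.kill fro val iso)

end Crest.Agent.X212.Bor5
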